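import Vale.Agent.P184.Displacement

/-! Elements of positive translation length in isometric actions on spaces of nonpositive
curvature. -/

set_option linter.unusedSectionVars false

namespace Vale.Agent.P184

open scoped Classical Topology
open Filter Subgroup

/-- The Cesàro means of a sequence tending to zero tend to zero. -/
lemma cesaro_null {u : ℕ → ℝ} (hu : Tendsto u atTop (𝓝 0)) :
    Tendsto (fun N : ℕ => (∑ n ∈ Finset.range (N + 1), u n) / ((N : ℝ) + 1)) atTop (𝓝 0) := by
  refine ((hu.cesaro).comp (tendsto_add_atTop_nat 1)).congr fun N => ?_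
  simp [Function.comp, div_eq_inv_mul]

/-- If two sequences of points stay at bounded distance and go to infinity, then the quadrilateral
inequality makes the differences of distances from two base points agree in the limit. -/
lemma tendsto_quad (a b c d : ℕ → ℝ) (R D : ℝ)
    (hab : ∀ n, |a n - b n| ≤ D) (hac : ∀ n, |a n - c n| ≤ R)
    (hbd : ∀ n, |b n - d n| ≤ R)
    (hquad : ∀ n, |a n ^ 2 - b n ^ 2 - c n ^ 2 + d n ^ 2| ≤ R ^ 2 + D ^ 2)
    (hc : Tendsto (fun n => c n + d n) atTop atTop) :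
    Tendsto (fun n => (a n - b n) - (c n - d n)) atTop (𝓝 0) := by
  refine squeeze_zero_norm' (a := fun n => 2 * (R ^ 2 + D ^ 2) / (c n + d n)) ?_ ?_
  · filter_upwards [hc.eventually_gt_atTop 0] with n hn
    have e : ((a n - b n) - (c n - d n)) * (c n + d n)
        = (a n ^ 2 - b n ^ 2 - c n ^ 2 + d n ^ 2) - (a n - b n) * ((a n - c n) + (b n - d n)) := by
      ring
    have hR : 0 ≤ R := (abs_nonneg _).trans (hac n)
    have hD : 0 ≤ D := (abs_nonneg _).trans (hab n)
    rw [Real.norm_eq_abs, le_div_iff₀ hn]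
    calc |(a n - b n) - (c n - d n)| * (c n + d n)
        = |((a n - b n) - (c n - d n)) * (c n + d n)| := by rw [abs_mul, abs_of_pos hn]
      _ ≤ |a n ^ 2 - b n ^ 2 - c n ^ 2 + d n ^ 2|
          + |a n - b n| * |(a n - c n) + (b n - d n)| := by
        rw [e, ← abs_mul]
        exact abs_sub _ _
      _ ≤ R ^ 2 + D ^ 2 + D * (R + R) :=
        add_le_add (hquad n) (mul_le_mul (hab n)
          ((abs_add_le _ _).trans (add_le_add (hac n) (hbd n))) (abs_nonneg _) hD)
      _ ≤ 2 * (R ^ 2 + D ^ 2) := by nlinarith [sq_nonneg (R - D)]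
  · exact tendsto_const_nhds.div_atTop hc

variable {G : Type} [Group G]

/-- An element of positive translation length for a left-invariant pseudometric satisfying the
quadrilateral inequality of nonpositive curvature. -/
theorem hsTrace_eq_zero_of_quad (g : G) (δ : G → G → ℝ)
    (hself : ∀ x, δ x x = 0) (hsymm : ∀ x y, δ x y = δ y x)
    (htri : ∀ x y z, δ x z ≤ δ x y + δ y z) (hleft : ∀ k x y, δ (k * x) (k * y) = δ x y)
    (hquad : ∀ a b c d, |δ a d ^ 2 + δ b c ^ 2 - δ a c ^ 2 - δ b d ^ 2| ≤ δ a b ^ 2 + δ c d ^ 2)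
    {ε : ℝ} (hε : 0 < ε) (hlin : ∀ n : ℕ, ε * n ≤ δ 1 (g ^ n))
    {q : ℕ} {e : G → Matrix (Fin q) (Fin q) ℂ} (he : IsIdemL1 e) :
    hsTrace (ConjClasses.mk g) e = 0 := by
  have habs : ∀ x y p, |δ x p - δ y p| ≤ δ x y := fun x y p => abs_le.mpr
    ⟨by linarith [htri y x p, hsymm x y], by linarith [htri x y p]⟩
  let U : Ultrafilter ℕ := Ultrafilter.of atTop
  have hU : (U : Filter ℕ) ≤ atTop := Ultrafilter.of_le _
  let av : G → ℕ → ℝ := fun x N =>
    (∑ n ∈ Finset.range (N + 1), (δ x (g ^ n) - δ 1 (g ^ n))) / ((N : ℝ) + 1)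
  have hshift : ∀ x y N, |av x N - av y N| ≤ δ x y := by
    intro x y N
    simp only [av]
    rw [← sub_div, ← Finset.sum_sub_distrib, abs_div,
      abs_of_pos (show (0 : ℝ) < (N : ℝ) + 1 by positivity), div_le_iff₀ (by positivity)]
    refine (Finset.abs_sum_le_sum_abs _ _).trans ?_
    refine (Finset.sum_le_sum (g := fun _ => δ x y) fun n _ => ?_).trans (le_of_eq ?_)
    · rw [sub_sub_sub_cancel_right]
      exact habs x y _
    · simp; ring
  have hav1 : ∀ N, av 1 N = 0 := fun N => by simp [av]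
  have hbd : ∀ x, IsBdd (av x) := fun x => ⟨δ x 1, fun N => by
    have h := hshift x 1 N
    rwa [hav1, sub_zero] at h⟩
  let b : G → ℝ := fun x => ulim U (av x)
  have hb : ∀ x y, |b x - b y| ≤ δ x y := fun x y =>
    le_of_tendsto' (((ulim_spec U (hbd x)).sub (ulim_spec U (hbd y))).abs) (hshift x y)
  have hgrow : Tendsto (fun n : ℕ => δ 1 (g ^ n)) atTop atTop :=
    tendsto_atTop_mono hlin (tendsto_natCast_atTop_atTop.const_mul_atTop hε)
  have hadd : ∀ z, z ∈ centralizer {g} → ∀ x, b (z * x) = b x + b z := by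
    intro z hz x
    have hzg : g * z = z * g := Subgroup.mem_centralizer_iff.mp hz g (Set.mem_singleton g)
    have hpow : ∀ n : ℕ, z * (g ^ n * z⁻¹) = g ^ n := fun n => by
      rw [← mul_assoc, ((show Commute z g from hzg.symm).pow_right n).eq, mul_inv_cancel_right]
    let qn : ℕ → G := fun n => g ^ n * z⁻¹
    have hz1 : ∀ y n, δ (z * y) (g ^ n) = δ y (qn n) := fun y n => by
      conv_lhs => rw [← hpow n]
      rw [hleft]
    have hpq : ∀ n, δ (qn n) (g ^ n) = δ z⁻¹ 1 := fun n => by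
      conv_lhs => rw [← mul_one (g ^ n)]
      exact hleft _ _ _
    have key := tendsto_quad (fun n => δ x (qn n)) (fun n => δ x (g ^ n))
      (fun n => δ 1 (qn n)) (fun n => δ 1 (g ^ n)) (δ x 1) (δ z⁻¹ 1)
      (fun n => by
        rw [← hpq n, hsymm x (qn n), hsymm x (g ^ n)]
        exact habs _ _ _)
      (fun n => habs _ _ _) (fun n => habs _ _ _)
      (fun n => by
        have h := hquad x 1 (g ^ n) (qn n)
        rw [hsymm (g ^ n) (qn n), hpq] at h
        have e : δ x (qn n) ^ 2 - δ x (g ^ n) ^ 2 - δ 1 (qn n) ^ 2 + δ 1 (g ^ n) ^ 2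
            = δ x (qn n) ^ 2 + δ 1 (g ^ n) ^ 2 - δ x (g ^ n) ^ 2 - δ 1 (qn n) ^ 2 := by ring
        rw [e]
        exact h)
      (tendsto_atTop_mono (fun n => le_add_of_nonneg_left
        ((abs_nonneg _).trans (habs 1 (qn n) (qn n)))) hgrow)
    have h3 : Tendsto (fun N => av (z * x) N - av x N - av z N) U (𝓝 0) := by
      refine ((cesaro_null key).mono_left hU).congr fun N => ?_
      simp only [av, ← sub_div, ← Finset.sum_sub_distrib]
      congr 1
      refine Finset.sum_congr rfl fun n _ => ?_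
      have e1 := hz1 x n
      have e2 := hz1 1 n
      rw [mul_one] at e2
      rw [e1, e2]
      ring
    have h4 := ((ulim_spec U (hbd (z * x))).sub (ulim_spec U (hbd x))).sub (ulim_spec U (hbd z))
    have h5 := tendsto_nhds_unique h4 h3
    show ulim U (av (z * x)) = ulim U (av x) + ulim U (av z)
    linarith
  have hgz : g ∈ centralizer {g} :=
    Subgroup.mem_centralizer_iff.mpr fun g' hg' => by rw [Set.mem_singleton_iff.mp hg']
  have hneg : b g ≤ -ε := by
    have hdiv : Tendsto (fun N : ℕ => -ε + (2 * δ g 1 + ε) * (1 / ((N : ℝ) + 1))) U (𝓝 (-ε)) := by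
      have h : Tendsto (fun N : ℕ => (1 : ℝ) / ((N : ℝ) + 1)) U (𝓝 0) :=
        tendsto_one_div_add_atTop_nhds_zero_nat.mono_left hU
      simpa using tendsto_const_nhds.add (h.const_mul (2 * δ g 1 + ε))
    refine le_of_tendsto_of_tendsto' (ulim_spec U (hbd g)) hdiv fun N => ?_
    have hsum : ∑ n ∈ Finset.range (N + 1), (δ g (g ^ n) - δ 1 (g ^ n))
        = δ g 1 - δ 1 (g ^ N) := by
      induction N with
      | zero => simp [hself]
      | succ m ih =>
        rw [Finset.sum_range_succ, ih]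
        have h : δ g (g ^ (m + 1)) = δ 1 (g ^ m) := by
          have h1 := hleft g 1 (g ^ m)
          rwa [mul_one, ← pow_succ'] at h1
        rw [h]
        ring
    show (∑ n ∈ Finset.range (N + 1), (δ g (g ^ n) - δ 1 (g ^ n))) / ((N : ℝ) + 1) ≤ _
    rw [hsum, div_le_iff₀ (by positivity)]
    have := hlin N
    have hd0 : 0 ≤ δ g 1 := (abs_nonneg _).trans (habs g 1 1)
    field_simp
    linarith
  refine hsTrace_eq_zero_of_equivariant g (fun x => b x⁻¹) (fun z => b z⁻¹) (fun k => ?_)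
    (fun x z hz => ?_) ?_ he
  · refine ⟨δ k⁻¹ 1, fun x => (hb _ _).trans (le_of_eq ?_)⟩
    rw [mul_inv_rev]
    conv_lhs => arg 2; rw [← mul_one x⁻¹]
    exact hleft _ _ _
  · show b (x * z)⁻¹ = b x⁻¹ + b z⁻¹
    rw [mul_inv_rev, hadd z⁻¹ (inv_mem hz)]
  · show b g⁻¹ ≠ 0
    have h := hadd g⁻¹ (inv_mem hgz) g
    rw [inv_mul_cancel] at h
    have h1 : b 1 = 0 := by
      have h0 := hadd 1 (one_mem _) 1
      rw [one_mul] at h0
      linarith
    intro h0
    linarith

end Vale.Agent.P184
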