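import Mathlib

namespace Vale.Agent.P184

open scoped Classical

/-- An idempotent matrix over `ℓ¹(G)`: absolutely summable entries, equal to its
convolution square. -/
def IsIdemL1 {G : Type} [Group G] {q : ℕ} (e : G → Matrix (Fin q) (Fin q) ℂ) : Prop :=
  (∀ i j, Summable fun g => ‖e g i j‖) ∧
    ∀ g i j, ∑' h, (e h * e (h⁻¹ * g)) i j = e g i j

/-- The Hattori–Stallings trace coefficient of `e` at the conjugacy class `C`. -/
noncomputable def hsTrace {G : Type} [Group G] {q : ℕ} (C : ConjClasses G)
    (e : G → Matrix (Fin q) (Fin q) ℂ) : ℂ :=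
  ∑' g, if ConjClasses.mk g = C then (e g).trace else 0

end Vale.Agent.P184
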