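import Vale.Agent.P184.MeanDef

/-! Limits of bounded families along an ultrafilter, invariant means on commutative groups, and
equivariant displacement functions from lengths with linear growth. -/

namespace Vale.Agent.P184

open scoped Classical Topology
open Filter Subgroup

/-- The limit of a bounded family along an ultrafilter (0 if there is none). -/
noncomputable def ulim {ι : Type} (U : Ultrafilter ι) (u : ι → ℝ) : ℝ :=
  if h : ∃ l, Tendsto u U (𝓝 l) then h.choose else 0

lemma ulim_spec {ι : Type} (U : Ultrafilter ι) {u : ι → ℝ} (hu : IsBdd u) :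
    Tendsto u U (𝓝 (ulim U u)) := by
  obtain ⟨B, hB⟩ := hu
  have h : ∃ l, Tendsto u U (𝓝 l) := by
    have hmem : Set.Icc (-B) B ∈ U.map u :=
      Ultrafilter.mem_map.mpr (Filter.univ_mem' fun i => ⟨(abs_le.mp (hB i)).1, (abs_le.mp (hB i)).2⟩)
    obtain ⟨l, -, hl⟩ := isCompact_Icc.ultrafilter_le_nhds' (U.map u) hmem
    exact ⟨l, hl⟩
  rw [ulim, dif_pos h]
  exact h.choose_spec

lemma IsBdd.add {α : Type} {u v : α → ℝ} (hu : IsBdd u) (hv : IsBdd v) :
    IsBdd fun a => u a + v a := by
  obtain ⟨B, hB⟩ := hu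
  obtain ⟨D, hD⟩ := hv
  exact ⟨B + D, fun a => (abs_add_le _ _).trans (add_le_add (hB a) (hD a))⟩

lemma IsBdd.comp {α β : Type} {u : α → ℝ} (hu : IsBdd u) (f : β → α) :
    IsBdd fun b => u (f b) :=
  hu.imp fun _ h b => h (f b)

/-- Every commutative group is amenable. -/
theorem hasInvMean_of_comm (Z : Type) [Group Z] (hc : ∀ a b : Z, a * b = b * a) :
    HasInvMean Z := by
  let : CommGroup Z := { (inferInstance : Group Z) with mul_comm := hc }
  let pt : ∀ i : Finset Z × ℕ, (i.1 → Fin (i.2 + 1)) → Z :=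
    fun i p => ∏ x : i.1, (x : Z) ^ (p x : ℕ)
  let avg : (Z → ℝ) → Finset Z × ℕ → ℝ :=
    fun u i => (∑ p : i.1 → Fin (i.2 + 1), u (pt i p))
      / (Fintype.card (i.1 → Fin (i.2 + 1)) : ℝ)
  let U : Ultrafilter (Finset Z × ℕ) := Ultrafilter.of atTop
  have hU : (U : Filter (Finset Z × ℕ)) ≤ atTop := Ultrafilter.of_le _
  have hcard : ∀ i : Finset Z × ℕ, (0 : ℝ) < Fintype.card (i.1 → Fin (i.2 + 1)) := fun i => by
    exact_mod_cast Fintype.card_pos
  have hle : ∀ u a, (∀ w, u w ≤ a) → ∀ i, avg u i ≤ a := by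
    intro u a h i
    rw [div_le_iff₀ (hcard i)]
    refine (Finset.sum_le_sum fun p _ => h (pt i p)).trans (le_of_eq ?_)
    simp [mul_comm]
  have hge : ∀ u a, (∀ w, a ≤ u w) → ∀ i, a ≤ avg u i := by
    intro u a h i
    rw [le_div_iff₀ (hcard i)]
    refine le_trans (le_of_eq ?_) (Finset.sum_le_sum fun p _ => h (pt i p))
    simp [mul_comm]
  have hbdd : ∀ u, IsBdd u → IsBdd (avg u) := by
    rintro u ⟨B, hB⟩
    exact ⟨B, fun i => abs_le.mpr ⟨hge u _ (fun w => (abs_le.mp (hB w)).1) i,
      hle u _ (fun w => (abs_le.mp (hB w)).2) i⟩⟩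
  refine ⟨fun u => ulim U (avg u), ?_, ?_, ?_, ?_⟩
  · intro u v hu hv
    refine tendsto_nhds_unique (ulim_spec U (hbdd _ (hu.add hv))) ?_
    refine ((ulim_spec U (hbdd u hu)).add (ulim_spec U (hbdd v hv))).congr fun i => ?_
    simp only [avg, Finset.sum_add_distrib, add_div]
  · exact fun u a hu h => le_of_tendsto' (ulim_spec U (hbdd u hu)) (hle u a h)
  · exact fun u a hu h => ge_of_tendsto' (ulim_spec U (hbdd u hu)) (hge u a h)
  · intro z u hu
    obtain ⟨B, hB⟩ := hu
    have hu : IsBdd u := ⟨B, hB⟩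
    have hsmall : Tendsto (fun i => avg (fun w => u (z * w)) i - avg u i) U (𝓝 0) := by
      refine squeeze_zero_norm' (a := fun i : Finset Z × ℕ => 2 * B / ((i.2 : ℝ) + 1)) ?_ ?_
      · filter_upwards [hU (eventually_ge_atTop (({z} : Finset Z), 0))] with i hi
        have hz : z ∈ i.1 := Finset.singleton_subset_iff.mp hi.1
        obtain ⟨F, n⟩ := i
        let z' : F := ⟨z, hz⟩
        let e := Equiv.funSplitAt z' (Fin (n + 1))
        let r : ({y : F // y ≠ z'} → Fin (n + 1)) → Z :=
          fun q => ∏ y : {y : F // y ≠ z'}, ((y : F) : Z) ^ (q y : ℕ)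
        have hpt : ∀ p, pt (F, n) p = z ^ ((e p).1 : ℕ) * r (e p).2 := by
          intro p
          simp only [pt, r]
          rw [Fintype.prod_eq_mul_prod_subtype_ne _ z']
          rfl
        have hsum : ∀ v : Z → ℝ, (∑ p : F → Fin (n + 1), v (pt (F, n) p))
            = ∑ q : {y : F // y ≠ z'} → Fin (n + 1), ∑ a ∈ Finset.range (n + 1), v (z ^ a * r q) := by
          intro v
          rw [Fintype.sum_congr _ _ (fun p => by rw [hpt p]),
            e.sum_comp (fun s => v (z ^ (s.1 : ℕ) * r s.2)), Fintype.sum_prod_type_right]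
          exact Finset.sum_congr rfl fun q _ => Fin.sum_univ_eq_sum_range (fun a => v (z ^ a * r q)) _
        have hcard' : (Fintype.card (F → Fin (n + 1)) : ℝ)
            = ((n : ℝ) + 1) * Fintype.card ({y : F // y ≠ z'} → Fin (n + 1)) := by
          rw [Fintype.card_congr e, Fintype.card_prod, Fintype.card_fin]
          push_cast
          ring
        have hdiff : avg (fun w => u (z * w)) (F, n) - avg u (F, n)
            = (∑ q : {y : F // y ≠ z'} → Fin (n + 1), (u (z ^ (n + 1) * r q) - u (r q)))
              / (Fintype.card (F → Fin (n + 1)) : ℝ) := by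
          simp only [avg]
          rw [← sub_div]
          congr 1
          rw [hsum (fun w => u (z * w)), hsum u, ← Finset.sum_sub_distrib]
          refine Finset.sum_congr rfl fun q _ => ?_
          rw [← Finset.sum_sub_distrib]
          have h := Finset.sum_range_sub (fun a => u (z ^ a * r q)) (n + 1)
          simp only [pow_zero, one_mul] at h
          rw [← h]
          refine Finset.sum_congr rfl fun a _ => ?_
          rw [← mul_assoc, ← pow_succ']
        have hq : |∑ q : {y : F // y ≠ z'} → Fin (n + 1), (u (z ^ (n + 1) * r q) - u (r q))|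
            ≤ 2 * B * Fintype.card ({y : F // y ≠ z'} → Fin (n + 1)) := by
          refine (Finset.abs_sum_le_sum_abs _ _).trans ?_
          refine (Finset.sum_le_sum fun q _ => (abs_sub _ _).trans
            (add_le_add (hB _) (hB _))).trans (le_of_eq ?_)
          simp
          ring
        have hc0 : (0 : ℝ) < Fintype.card ({y : F // y ≠ z'} → Fin (n + 1)) := by
          exact_mod_cast Fintype.card_pos
        rw [Real.norm_eq_abs, hdiff, abs_div, hcard', abs_of_pos (mul_pos (by positivity) hc0)]
        refine (div_le_div_of_nonneg_right hq (by positivity)).trans (le_of_eq ?_)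
        field_simp
      · have h1 : Tendsto (fun i : Finset Z × ℕ => i.2) U atTop := by
          have h2 : Tendsto (fun i : Finset Z × ℕ => i.2) atTop atTop :=
            tendsto_atTop_atTop.mpr fun b => ⟨(∅, b), fun i hi => hi.2⟩
          exact h2.mono_left hU
        have h3 : Tendsto (fun n : ℕ => 2 * B / ((n : ℝ) + 1)) atTop (𝓝 0) := by
          simpa [div_eq_mul_inv] using
            ((tendsto_one_div_add_atTop_nhds_zero_nat (𝕜 := ℝ)).const_mul (2 * B))
        exact h3.comp h1
    have h1 := (ulim_spec U (hbdd _ (hu.comp fun w => z * w))).sub (ulim_spec U (hbdd u hu))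
    exact sub_eq_zero.mp (tendsto_nhds_unique h1 hsmall)

variable {G : Type} [Group G]

/-- An equivariant displacement function at an element of linear growth with amenable
centralizer. -/
theorem exists_displacement (g : G) (d : G → ℝ) (hd : ∀ x y, d (x * y) ≤ d x + d y)
    (hsymm : ∀ x, d x⁻¹ = d x) {ε : ℝ} (hε : 0 < ε) (hlin : ∀ n : ℕ, ε * n ≤ d (g ^ n))
    (hA : HasInvMean (centralizer {g})) :
    ∃ f : G → ℝ, (∀ k x, |f (k * x) - f x| ≤ d k) ∧
      (∀ x z, z ∈ centralizer {g} → f (x * z) = f x + f z) ∧ 0 < f g := by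
  obtain ⟨m, madd, mle, mge, minv⟩ := hA
  have hl : ∀ k x, |d (k * x) - d x| ≤ d k := by
    intro k x
    have h := hd k⁻¹ (k * x)
    rw [inv_mul_cancel_left, hsymm] at h
    exact abs_le.mpr ⟨by linarith, by linarith [hd k x]⟩
  let U : Ultrafilter ℕ := Ultrafilter.of atTop
  have hU : (U : Filter ℕ) ≤ atTop := Ultrafilter.of_le _
  let av : G → ℕ → ℝ :=
    fun x N => (∑ n ∈ Finset.range (N + 1), (d (x * g ^ n) - d (g ^ n))) / ((N : ℝ) + 1)
  have hshift : ∀ k x N, |av (k * x) N - av x N| ≤ d k := by
    intro k x N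
    simp only [av]
    rw [← sub_div, ← Finset.sum_sub_distrib, abs_div, abs_of_pos (show (0 : ℝ) < (N : ℝ) + 1 by positivity),
      div_le_iff₀ (by positivity)]
    refine (Finset.abs_sum_le_sum_abs _ _).trans ?_
    refine (Finset.sum_le_sum (g := fun _ => d k) fun n _ => ?_).trans (le_of_eq ?_)
    · rw [sub_sub_sub_cancel_right, mul_assoc]
      exact hl k _
    · simp; ring
  have hbd : ∀ x, IsBdd (av x) := by
    intro x
    refine ⟨d x, fun N => ?_⟩
    have h := hshift x 1 N
    have h1 : av 1 N = 0 := by simp [av]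
    rwa [mul_one, h1, sub_zero] at h
  let b : G → ℝ := fun x => ulim U (av x)
  have hb : ∀ k x, |b (k * x) - b x| ≤ d k := fun k x =>
    le_of_tendsto' (((ulim_spec U (hbd (k * x))).sub (ulim_spec U (hbd x))).abs) (hshift k x)
  set s := b g - b 1 with hs
  have hdiv : Tendsto (fun N : ℕ => (1 : ℝ) / ((N : ℝ) + 1)) U (𝓝 0) :=
    tendsto_one_div_add_atTop_nhds_zero_nat.mono_left hU
  have hstep : ∀ x N, av (x * g) N - av x N = (d (x * g ^ (N + 1)) - d x) / ((N : ℝ) + 1) := by
    intro x N
    simp only [av]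
    rw [← sub_div, ← Finset.sum_sub_distrib]
    congr 1
    have h := Finset.sum_range_sub (fun n => d (x * g ^ n)) (N + 1)
    simp only [pow_zero, mul_one] at h
    rw [← h]
    refine Finset.sum_congr rfl fun n _ => ?_
    rw [sub_sub_sub_cancel_right, mul_assoc, ← pow_succ']
  have hsx : ∀ x, b (x * g) - b x = s := by
    intro x
    have h1 := (ulim_spec U (hbd (x * g))).sub (ulim_spec U (hbd x))
    have h2 := (ulim_spec U (hbd (1 * g))).sub (ulim_spec U (hbd 1))
    have h3 : Tendsto (fun N => (av (x * g) N - av x N) - (av (1 * g) N - av 1 N)) U (𝓝 0) := by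
      refine squeeze_zero_norm (a := fun N : ℕ => (2 * |d x| + |d 1|) * (1 / ((N : ℝ) + 1))) ?_ ?_
      · intro N
        rw [hstep, hstep, ← sub_div, Real.norm_eq_abs, abs_div,
          abs_of_pos (show (0 : ℝ) < (N : ℝ) + 1 by positivity), mul_one_div]
        refine div_le_div_of_nonneg_right ?_ (by positivity)
        have := abs_le.mp (hl x (g ^ (N + 1)))
        have := le_abs_self (d x)
        have := neg_abs_le (d x)
        have := le_abs_self (d 1)
        have := neg_abs_le (d 1)
        rw [one_mul, abs_le]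
        constructor <;> linarith
      · simpa using hdiv.const_mul (2 * |d x| + |d 1|)
    have h4 := sub_eq_zero.mp (tendsto_nhds_unique (h1.sub h2) h3)
    rw [h4, one_mul]
  have hspos : 0 < s := by
    have h1 := (ulim_spec U (hbd (1 * g))).sub (ulim_spec U (hbd 1))
    rw [one_mul] at h1
    have hlow : Tendsto (fun N : ℕ => ε - d 1 * (1 / ((N : ℝ) + 1))) U (𝓝 ε) := by
      simpa using tendsto_const_nhds.sub (hdiv.const_mul (d 1))
    refine hε.trans_le (le_of_tendsto_of_tendsto' hlow h1 fun N => ?_)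
    have h := hstep 1 N
    rw [one_mul] at h
    rw [h, le_div_iff₀ (by positivity)]
    have := hlin (N + 1)
    push_cast at this
    field_simp
    simp only [one_mul]
    linarith
  let u : G → centralizer {g} → ℝ := fun x w => b (x * w) - b w
  have hu : ∀ x, IsBdd (u x) := fun x => ⟨d x, fun w => hb x w⟩
  have mconst : ∀ c, m (fun _ => c) = c := fun c =>
    le_antisymm (mle _ c ⟨|c|, fun _ => le_rfl⟩ fun _ => le_rfl)
      (mge _ c ⟨|c|, fun _ => le_rfl⟩ fun _ => le_rfl)
  refine ⟨fun x => m (u x), fun k x => ?_, fun x z hz => ?_, ?_⟩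
  · have hk : IsBdd (fun w : centralizer {g} => b (k * (x * w)) - b (x * w)) :=
      ⟨d k, fun w => hb k _⟩
    have hsum : m (u (k * x)) = m (fun w : centralizer {g} => b (k * (x * w)) - b (x * w)) + m (u x) := by
      rw [← madd _ _ hk (hu x)]
      congr 1
      funext w
      simp only [u, mul_assoc]
      ring
    show |m (u (k * x)) - m (u x)| ≤ d k
    rw [hsum, add_sub_cancel_right, abs_le]
    exact ⟨mge _ _ hk fun w => (abs_le.mp (hb k _)).1, mle _ _ hk fun w => (abs_le.mp (hb k _)).2⟩
  · have h1 : m (fun w => u x (⟨z, hz⟩ * w)) = m (u x) := minv _ _ (hu x)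
    show m (u (x * z)) = m (u x) + m (u z)
    rw [← h1, ← madd _ _ ((hu x).comp _) (hu z)]
    congr 1
    funext w
    simp only [u, Subgroup.coe_mul, mul_assoc]
    ring
  · show 0 < m (u g)
    have : u g = fun _ => s := by
      funext w
      have hw : g * (w : G) = (w : G) * g :=
        Subgroup.mem_centralizer_iff.mp w.2 g (Set.mem_singleton g)
      simp only [u, hw]
      exact hsx _
    rw [this, mconst]
    exact hspos

end Vale.Agent.P184
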