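import Vale.Agent.P184.L1

/-! Twisting an idempotent by the monomial representations coming from a real cocycle on a
finite permutation representation. -/

set_option linter.unusedSectionVars false

namespace Vale.Agent.P184

open scoped Classical Kronecker
open Matrix Complex

variable {G X : Type} [Group G] [Fintype X] [DecidableEq X] {q : ℕ}

/-- The monomial matrix of `g` at time `t`. -/
noncomputable def mono (σ : G →* Equiv.Perm X) (c : G → X → ℝ) (t : ℝ) (g : G) : Matrix X X ℂ :=
  fun x y => if σ g y = x then exp ((t * c g y : ℝ) * I) else 0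

lemma mono_mul {σ : G →* Equiv.Perm X} {c : G → X → ℝ}
    (hc : ∀ a b x, c (a * b) x = c a (σ b x) + c b x) (t : ℝ) (g h : G) :
    mono σ c t (g * h) = mono σ c t g * mono σ c t h := by
  ext x z
  rw [Matrix.mul_apply, Finset.sum_eq_single (σ h z)]
  · by_cases hx : σ g (σ h z) = x
    · simp only [mono, map_mul, Equiv.Perm.mul_apply, hx, if_true]
      rw [hc, ← exp_add]
      congr 1
      push_cast
      ring
    · simp [mono, hx]
  · intro y _ hy
    simp [mono, Ne.symm hy]
  · simp

lemma mono_norm_le (σ : G →* Equiv.Perm X) (c : G → X → ℝ) (t : ℝ) (g : G) (x y : X) :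
    ‖mono σ c t g x y‖ ≤ 1 := by
  rw [mono]
  split_ifs
  · rw [norm_exp_ofReal_mul_I]
  · simp

lemma mono_continuous (σ : G →* Equiv.Perm X) (c : G → X → ℝ) (g : G) (x y : X) :
    Continuous fun t => mono σ c t g x y := by
  simp only [mono]
  split_ifs
  · fun_prop
  · fun_prop

attribute [local instance] Matrix.linftyOpNormedRing Matrix.linftyOpNormedAlgebra
  Matrix.linftyOpNormedAddCommGroup Matrix.linftyOpNormedSpace

lemma norm_le_entries {m : Type} [Fintype m] [DecidableEq m] (M : Matrix m m ℂ) :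
    ‖M‖ ≤ ∑ i, ∑ j, ‖M i j‖ := by
  rw [Matrix.linfty_opNorm_def]
  have h : (Finset.univ.sup fun i => ∑ j, ‖M i j‖₊) ≤ ∑ i, ∑ j, ‖M i j‖₊ :=
    Finset.sup_le fun i hi =>
      Finset.single_le_sum (f := fun i => ∑ j, ‖M i j‖₊) (fun _ _ => zero_le) hi
  have h' := NNReal.coe_le_coe.mpr h
  simpa only [NNReal.coe_sum, coe_nnnorm] using h'

/-- The bound for the norms of the twisted values. -/
noncomputable def bnd (X : Type) [Fintype X] (e : G → Matrix (Fin q) (Fin q) ℂ) (g : G) : ℝ :=
  ∑ i : X × Fin q, ∑ j : X × Fin q, ‖e g i.2 j.2‖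

variable {e : G → Matrix (Fin q) (Fin q) ℂ}

lemma summable_bnd (he : ∀ i j, Summable fun g => ‖e g i j‖) : Summable (bnd X e) :=
  summable_sum fun i _ => summable_sum fun j _ => he i.2 j.2

lemma norm_twist_le (σ : G →* Equiv.Perm X) (c : G → X → ℝ) (t : ℝ) (g : G) :
    ‖mono σ c t g ⊗ₖ e g‖ ≤ bnd X e g := by
  refine (norm_le_entries _).trans ?_
  refine Finset.sum_le_sum fun i _ => Finset.sum_le_sum fun j _ => ?_
  rw [Matrix.kronecker_apply, norm_mul]
  exact mul_le_of_le_one_left (norm_nonneg _) (mono_norm_le σ c t g _ _)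

/-- The twisted idempotent. -/
noncomputable def twist (σ : G →* Equiv.Perm X) (c : G → X → ℝ)
    (he : ∀ i j, Summable fun g => ‖e g i j‖) (t : ℝ) :
    L1 G (Matrix (X × Fin q) (X × Fin q) ℂ) :=
  ⟨fun g => mono σ c t g ⊗ₖ e g,
    Summable.of_nonneg_of_le (fun _ => norm_nonneg _) (norm_twist_le σ c t) (summable_bnd he)⟩

lemma twist_apply (σ : G →* Equiv.Perm X) (c : G → X → ℝ)
    (he : ∀ i j, Summable fun g => ‖e g i j‖) (t : ℝ) (g : G) :
    twist σ c he t g = mono σ c t g ⊗ₖ e g := rfl

lemma twist_idem {σ : G →* Equiv.Perm X} {c : G → X → ℝ}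
    (hc : ∀ a b x, c (a * b) x = c a (σ b x) + c b x) (he : IsIdemL1 e) (t : ℝ) :
    twist σ c he.1 t * twist σ c he.1 t = twist σ c he.1 t := by
  apply L1.ext
  funext g
  have hs := L1.summable_conv (twist σ c he.1 t) (twist σ c he.1 t) g
  show (∑' h, twist σ c he.1 t h * twist σ c he.1 t (h⁻¹ * g)) = mono σ c t g ⊗ₖ e g
  ext i j
  have e1 : (∑' h, twist σ c he.1 t h * twist σ c he.1 t (h⁻¹ * g)) i j
      = ∑' h, (twist σ c he.1 t h * twist σ c he.1 t (h⁻¹ * g)) i j := by
    exact (Pi.hasSum.mp (Pi.hasSum.mp hs.hasSum i) j).tsum_eq.symm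
  rw [e1]
  have e2 : ∀ h, (twist σ c he.1 t h * twist σ c he.1 t (h⁻¹ * g)) i j
      = mono σ c t g i.1 j.1 * (e h * e (h⁻¹ * g)) i.2 j.2 := by
    intro h
    rw [twist_apply, twist_apply, ← Matrix.mul_kronecker_mul, ← mono_mul hc,
      mul_inv_cancel_left]
    rfl
  simp_rw [e2]
  rw [tsum_mul_left, he.2]
  rfl

/-- The trace, as a continuous linear functional. -/
noncomputable def trL (n : Type) [Fintype n] [DecidableEq n] : Matrix n n ℂ →L[ℂ] ℂ :=
  LinearMap.toContinuousLinearMap (Matrix.traceLinearMap n ℂ ℂ)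

lemma tau_twist {σ : G →* Equiv.Perm X} {c : G → X → ℝ}
    (hc : ∀ a b x, c (a * b) x = c a (σ b x) + c b x) (he : IsIdemL1 e) (g₀ : G) (t : ℝ) :
    L1.tau (trL (X × Fin q)) (ConjClasses.mk g₀) (twist σ c he.1 t)
      = (mono σ c t g₀).trace * hsTrace (ConjClasses.mk g₀) e := by
  unfold L1.tau hsTrace
  rw [← tsum_mul_left]
  refine tsum_congr fun g => ?_
  split_ifs with hg
  · obtain ⟨k, hk⟩ := isConj_iff.mp (ConjClasses.mk_eq_mk_iff_isConj.mp hg)
    have htr : (mono σ c t g).trace = (mono σ c t g₀).trace := by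
      calc (mono σ c t g).trace = (mono σ c t (g * k⁻¹ * k)).trace := by rw [inv_mul_cancel_right]
        _ = (mono σ c t k * mono σ c t (g * k⁻¹)).trace := by
            rw [mono_mul hc, Matrix.trace_mul_comm]
        _ = (mono σ c t g₀).trace := by rw [← mono_mul hc, ← mul_assoc, hk]
    show (twist σ c he.1 t g).trace = _
    rw [twist_apply, Matrix.trace_kronecker, htr]
  · simp

/-- The coefficient vanishes at every class that moves under such a twist. -/
theorem hsTrace_eq_zero (σ : G →* Equiv.Perm X) (c : G → X → ℝ)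
    (hc : ∀ a b x, c (a * b) x = c a (σ b x) + c b x) (g₀ : G) (x₀ : X) (hfix : σ g₀ x₀ = x₀)
    (hne : c g₀ x₀ ≠ 0) (he : IsIdemL1 e) : hsTrace (ConjClasses.mk g₀) e = 0 := by
  set C := ConjClasses.mk g₀
  let f : ℝ → ℂ := fun t => (mono σ c t g₀).trace * hsTrace C e
  have hloc : IsLocallyConstant f := by
    rw [IsLocallyConstant.iff_eventually_eq]
    intro t
    have hk : Continuous fun s => L1.nm (twist σ c he.1 s - twist σ c he.1 t) := by
      refine continuous_tsum (u := fun g => bnd X e g + bnd X e g) ?_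
        ((summable_bnd he.1).add (summable_bnd he.1)) ?_
      · intro g
        refine Continuous.norm ?_
        show Continuous fun s => mono σ c s g ⊗ₖ e g - mono σ c t g ⊗ₖ e g
        refine continuous_matrix fun i j => ?_
        exact ((mono_continuous σ c g i.1 j.1).mul continuous_const).sub continuous_const
      · intro g s
        rw [norm_norm]
        exact (norm_sub_le _ _).trans (add_le_add (norm_twist_le σ c s g) (norm_twist_le σ c t g))
    have h0 : L1.nm (twist σ c he.1 t - twist σ c he.1 t) < 1 := by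
      simp [L1.nm, L1.zero_apply]
    filter_upwards [hk.continuousAt.eventually_lt continuousAt_const h0] with s hs
    have := L1.tau_eq_of_close (T := trL (X × Fin q)) (fun a b => Matrix.trace_mul_comm a b)
      C (twist_idem hc he s) (twist_idem hc he t) hs
    rwa [tau_twist hc he, tau_twist hc he] at this
  by_contra htau
  have hchar : (mono σ c (Real.pi / c g₀ x₀) g₀).trace = (mono σ c 0 g₀).trace :=
    mul_right_cancel₀ htau (hloc.apply_eq_of_preconnectedSpace _ _)
  have hre := congrArg Complex.re hchar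
  rw [Matrix.trace, Matrix.trace, Complex.re_sum, Complex.re_sum] at hre
  refine absurd hre (ne_of_lt (Finset.sum_lt_sum (fun x _ => ?_) ⟨x₀, Finset.mem_univ _, ?_⟩))
  · simp only [Matrix.diag, mono]
    split_ifs
    · rw [exp_ofReal_mul_I_re, exp_ofReal_mul_I_re, zero_mul, Real.cos_zero]
      exact Real.cos_le_one _
    · rfl
  · simp only [Matrix.diag, mono, hfix, if_true]
    rw [exp_ofReal_mul_I_re, exp_ofReal_mul_I_re, zero_mul, Real.cos_zero,
      div_mul_cancel₀ _ hne, Real.cos_pi]
    norm_num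

end Vale.Agent.P184
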