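import Vale.Agent.P184.Pairing
import Vale.Agent.P184.Twist
import Vale.Agent.P184.Mean

/-! Trace coefficients at elements with an equivariant displacement function. -/

set_option linter.unusedSectionVars false

namespace Vale.Agent.P184

open scoped Classical
open Subgroup

variable {G : Type} [Group G] {q : ℕ} {e : G → Matrix (Fin q) (Fin q) ℂ}

section
attribute [local instance] Matrix.linftyOpNormedRing Matrix.linftyOpNormedAlgebra
  Matrix.linftyOpNormedAddCommGroup Matrix.linftyOpNormedSpace

/-- The coefficient times the value of any dominated cyclic cocycle vanishes. -/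
theorem mul_hsTrace_eq_zero {C : ConjClasses G} {L : Weight G} {v : ℝ} (κ : Cyc G C L v)
    (he : IsIdemL1 e) : (v : ℂ) * hsTrace C e = 0 := by
  have hsum : Summable fun g => ‖e g‖ :=
    Summable.of_nonneg_of_le (fun _ => norm_nonneg _) (fun g => norm_le_entries (e g))
      (summable_sum fun i _ => summable_sum fun j _ => he.1 i j)
  let E : L1 G (Matrix (Fin q) (Fin q) ℂ) := ⟨e, hsum⟩
  have hE : E * E = E := by
    apply L1.ext
    funext g
    have hs := L1.summable_conv E E g
    show (∑' h, e h * e (h⁻¹ * g)) = e g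
    ext i j
    exact ((Pi.hasSum.mp (Pi.hasSum.mp hs.hasSum i) j).tsum_eq.symm).trans (he.2 g i j)
  exact L1.mul_tau_eq_zero (T := trL (Fin q)) κ (fun a b => Matrix.trace_mul_comm a b) hE

end

/-- An exactly equivariant displacement function kills the class. -/
theorem hsTrace_eq_zero_of_equivariant (g : G) (f φ : G → ℝ)
    (hlip : ∀ k, ∃ B, ∀ x, |f (k * x) - f x| ≤ B)
    (heq : ∀ x z, z ∈ centralizer {g} → f (x * z) = f x + φ z) (hne : φ g ≠ 0)
    (he : IsIdemL1 e) : hsTrace (ConjClasses.mk g) e = 0 := by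
  have hbdd : ∀ k, BddAbove (Set.range fun x => |f (k * x) - f x|) := fun k => by
    obtain ⟨B, hB⟩ := hlip k
    exact ⟨B, by rintro _ ⟨x, rfl⟩; exact hB x⟩
  let L : Weight G :=
    { w := fun k => ⨆ x, |f (k * x) - f x|
      nonneg := fun k => le_trans (abs_nonneg _) (le_ciSup (hbdd k) 1)
      submul := fun k l => ciSup_le fun x => by
        have h := abs_sub_le (f (k * (l * x))) (f (l * x)) (f x)
        rw [mul_assoc]
        exact h.trans (add_le_add (le_ciSup (hbdd k) (l * x)) (le_ciSup (hbdd l) x)) }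
  let cc : G → G → ℝ := fun k w =>
    if h : IsConj g w then
      f (k * Classical.choose (isConj_iff.mp h)) - f (Classical.choose (isConj_iff.mp h))
    else 0
  have hcc : ∀ k w x, x * g * x⁻¹ = w → cc k w = f (k * x) - f x := by
    intro k w x hx
    have h : IsConj g w := isConj_iff.mpr ⟨x, hx⟩
    simp only [cc, dif_pos h]
    set y := Classical.choose (isConj_iff.mp h)
    have hy : y * g * y⁻¹ = w := Classical.choose_spec (isConj_iff.mp h)
    have hz : x⁻¹ * y ∈ centralizer {g} := by
      rw [Subgroup.mem_centralizer_iff]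
      intro g' hg'
      rw [Set.mem_singleton_iff.mp hg']
      have e1 : x * g * x⁻¹ = y * g * y⁻¹ := hx.trans hy.symm
      calc g * (x⁻¹ * y) = x⁻¹ * (x * g * x⁻¹) * y := by group
        _ = x⁻¹ * (y * g * y⁻¹) * y := by rw [e1]
        _ = x⁻¹ * y * g := by group
    have e2 : f y = f x + φ (x⁻¹ * y) := by
      have h1 := heq x _ hz
      rwa [mul_inv_cancel_left] at h1
    have e3 : f (k * y) = f (k * x) + φ (x⁻¹ * y) := by
      have h1 := heq (k * x) _ hz
      rwa [mul_assoc, mul_inv_cancel_left] at h1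
    rw [e2, e3]
    ring
  have hconj : ∀ w, ConjClasses.mk w = ConjClasses.mk g → ∃ x, x * g * x⁻¹ = w := fun w hw =>
    isConj_iff.mp (ConjClasses.mk_eq_mk_iff_isConj.mp hw.symm)
  let κ : Cyc G (ConjClasses.mk g) L (φ g) :=
    { t := fun h k => cc k (h * k)
      bound := fun h k => by
        show |cc k (h * k)| ≤ _
        by_cases hh : IsConj g (h * k)
        · simp only [cc, dif_pos hh]
          exact le_ciSup (hbdd k) _
        · simp only [cc, dif_neg hh, abs_zero]
          exact L.nonneg k
      cocycle := fun h k l hC => by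
        obtain ⟨x, hx⟩ := hconj _ hC
        show cc (k * l) (h * (k * l)) = cc k (l * h * k) + cc l (h * k * l)
        rw [hcc _ _ x (by rw [hx, mul_assoc]), hcc k _ (l * x) (by
          calc l * x * g * (l * x)⁻¹ = l * (x * g * x⁻¹) * l⁻¹ := by group
            _ = l * h * k := by rw [hx]; group), hcc l _ x hx, mul_assoc]
        ring
      unit := fun w hw => by
        obtain ⟨x, hx⟩ := hconj _ hw
        show cc w (1 * w) = φ g
        rw [one_mul, hcc w w x hx]
        have h1 : w * x = x * g := by rw [← hx]; group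
        have hg : g ∈ centralizer {g} :=
          Subgroup.mem_centralizer_iff.mpr fun g' hg' => by rw [Set.mem_singleton_iff.mp hg']
        rw [h1, heq x g hg]
        ring }
  exact (mul_eq_zero.mp (mul_hsTrace_eq_zero κ he)).resolve_left (by exact_mod_cast hne)

/-- A coarsely equivariant displacement function suffices. -/
theorem hsTrace_eq_zero_of_coarse (g : G) (F φ : G → ℝ) (D : ℝ)
    (hlip : ∀ k, ∃ B, ∀ x, |F (k * x) - F x| ≤ B)
    (hhom : ∀ a b, a ∈ centralizer {g} → b ∈ centralizer {g} → φ (a * b) = φ a + φ b)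
    (heq : ∀ x z, z ∈ centralizer {g} → |F (x * z) - F x - φ z| ≤ D) (hne : φ g ≠ 0)
    (he : IsIdemL1 e) : hsTrace (ConjClasses.mk g) e = 0 := by
  let r : G → G := fun x => Quotient.out (QuotientGroup.mk x : G ⧸ centralizer {g})
  have hr : ∀ x, (r x)⁻¹ * x ∈ centralizer {g} := fun x =>
    QuotientGroup.eq.mp (QuotientGroup.out_eq' _)
  let f : G → ℝ := fun x => F (r x) + φ ((r x)⁻¹ * x)
  have hfF : ∀ x, |f x - F x| ≤ D := fun x => by
    have h := heq (r x) _ (hr x)
    rw [mul_inv_cancel_left] at h
    rw [abs_sub_comm]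
    simpa only [f, sub_add_eq_sub_sub] using h
  refine hsTrace_eq_zero_of_equivariant g f φ (fun k => ?_) (fun x z hz => ?_) hne he
  · obtain ⟨B, hB⟩ := hlip k
    refine ⟨B + D + D, fun x => ?_⟩
    have := abs_le.mp (hfF (k * x))
    have := abs_le.mp (hfF x)
    have := abs_le.mp (hB x)
    exact abs_le.mpr ⟨by linarith, by linarith⟩
  · have hrz : r (x * z) = r x := by
      simp only [r]
      congr 1
      rw [QuotientGroup.eq]
      simpa using inv_mem hz
    simp only [f, hrz, ← mul_assoc, hhom _ _ (hr x) hz]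
    ring

/-- Elements of linear growth with amenable centralizer. -/
theorem hsTrace_eq_zero_of_undistorted (g : G) (d : G → ℝ) (hd : ∀ x y, d (x * y) ≤ d x + d y)
    (hsymm : ∀ x, d x⁻¹ = d x) {ε : ℝ} (hε : 0 < ε) (hlin : ∀ n : ℕ, ε * n ≤ d (g ^ n))
    (hA : HasInvMean (centralizer {g})) (he : IsIdemL1 e) :
    hsTrace (ConjClasses.mk g) e = 0 := by
  obtain ⟨f, h1, h2, h3⟩ := exists_displacement g d hd hsymm hε hlin hA
  exact hsTrace_eq_zero_of_equivariant g f f (fun k => ⟨d k, h1 k⟩) h2 h3.ne' he

end Vale.Agent.P184
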