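import Mathlib

/-! A countable field with an element that is not a root of unity maps to a normed field in which
that element does not have norm one. -/

namespace Vale.Agent.P184

open Cardinal Polynomial
open scoped LaurentSeries

/-- A countable extension of a countable field embeds into every uncountable algebraically closed
extension of it. -/
theorem exists_hom_to_algClosed {k K₀ L : Type} [Field k] [Field K₀] [Field L] [Countable k]
    [Countable K₀] [IsAlgClosed L] [Uncountable L] (ψ : k →+* K₀) (ψ' : k →+* L) :
    ∃ φ : K₀ →+* L, φ.comp ψ = ψ' := by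
  let : Algebra k K₀ := ψ.toAlgebra
  let : Algebra k L := ψ'.toAlgebra
  obtain ⟨B, hB⟩ := exists_isTranscendenceBasis k K₀
  obtain ⟨T, hT⟩ := exists_isTranscendenceBasis k L
  have hL : ℵ₀ < #L := Cardinal.aleph0_lt_mk
  have hTi : ℵ₀ ≤ #T := by
    by_contra h
    rw [not_le] at h
    have h2 := IsAlgClosed.cardinal_le_max_transcendence_basis' (R := k) _ hT
    exact absurd (hL.trans_le h2) (not_lt.mpr (max_le (max_le mk_le_aleph0 h.le) le_rfl))
  obtain ⟨j⟩ : Nonempty ((B : Set K₀) ↪ (T : Set L)) := by
    rw [← Cardinal.le_def]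
    exact mk_le_aleph0.trans hTi
  have hw : AlgebraicIndependent k fun b => ((j b : T) : L) := hT.1.comp _ j.injective
  let E := IntermediateField.adjoin k (Set.range ((↑) : B → K₀))
  have : Algebra.IsAlgebraic E K₀ := hB.isAlgebraic_field
  let f : E →ₐ[k] L :=
    (IntermediateField.val _).comp
      ((hw.aevalEquivField.toAlgHom).comp hB.1.aevalEquivField.symm.toAlgHom)
  let : Algebra E L := f.toRingHom.toAlgebra
  let F : K₀ →ₐ[E] L := IsAlgClosed.lift
  refine ⟨F.toRingHom, RingHom.ext fun a => ?_⟩
  exact (F.commutes (algebraMap k E a)).trans (f.commutes a)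

/-- A non-integral algebraic number has norm above one under some `p`-adic embedding. -/
theorem exists_padic_gt_one {k : Type} [Field k] [CharZero k] (x : k) (hx : IsAlgebraic ℚ x)
    (hni : ¬IsIntegral ℤ x) :
    ∃ (p : ℕ) (_ : Fact p.Prime) (y : PadicAlgCl p),
      aeval y (minpoly ℚ x) = 0 ∧ 1 < ‖y‖ := by
  have hint : IsIntegral ℚ x := hx.isIntegral
  have hc : ∃ i, ((minpoly ℚ x).coeff i).den ≠ 1 := by
    by_contra h
    push Not at h
    apply hni
    have hmem : minpoly ℚ x ∈ lifts (Int.castRingHom ℚ) := by
      rw [lifts_iff_coeff_lifts]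
      intro i
      exact ⟨((minpoly ℚ x).coeff i).num, Rat.coe_int_num_of_den_eq_one (h i)⟩
    obtain ⟨q, hq, -, hqm⟩ := lifts_and_natDegree_eq_and_monic hmem (minpoly.monic hint)
    refine ⟨q, hqm, ?_⟩
    have h2 := minpoly.aeval ℚ x
    rw [← hq, aeval_def, eval₂_map] at h2
    rwa [RingHom.ext_int ((algebraMap ℚ k).comp (Int.castRingHom ℚ)) (algebraMap ℤ k)] at h2
  obtain ⟨i, hi⟩ := hc
  set c := (minpoly ℚ x).coeff i with hcdef
  obtain ⟨p, hp, hpd⟩ := Nat.exists_prime_and_dvd hi
  have : Fact p.Prime := ⟨hp⟩
  refine ⟨p, this, ?_⟩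
  by_contra hno
  push Not at hno
  have hden : ‖(c.den : ℚ_[p])‖ < 1 := by
    have h := (Padic.norm_intCast_lt_one_iff (p := p) (k := (c.den : ℤ))).mpr
      (Int.natCast_dvd_natCast.mpr hpd)
    simpa using h
  have hnum : ‖(c.num : ℚ_[p])‖ = 1 := by
    refine le_antisymm (Padic.norm_int_le_one _) ?_
    by_contra h
    have h1 := (Padic.norm_intCast_lt_one_iff).mp (not_le.mp h)
    have h2 : p ∣ Nat.gcd c.num.natAbs c.den := Nat.dvd_gcd (Int.natCast_dvd.mp h1) hpd
    rw [c.reduced.gcd_eq_one] at h2
    exact hp.one_lt.ne' (Nat.dvd_one.mp h2)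
  have hc1 : 1 < ‖(c : ℚ_[p])‖ := by
    have h : (c : ℚ_[p]) * (c.den : ℚ_[p]) = (c.num : ℚ_[p]) := by
      exact_mod_cast c.mul_den_eq_num
    have h' := congrArg norm h
    rw [norm_mul, hnum] at h'
    by_contra hle
    have := mul_le_mul (not_lt.mp hle) le_rfl (norm_nonneg (c.den : ℚ_[p])) zero_le_one
    linarith
  have hmon := (minpoly.monic hint).map (algebraMap ℚ (PadicAlgCl p))
  have hroots := (IsAlgClosed.splits ((minpoly ℚ x).map (algebraMap ℚ (PadicAlgCl p)))).eq_prod_roots_of_monic hmon
  have key : ∀ m : Multiset (PadicAlgCl p), (∀ r ∈ m, ‖r‖ ≤ 1) →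
      ∀ n, ‖((m.map fun r => X - C r).prod).coeff n‖ ≤ 1 := by
    intro m
    induction m using Multiset.induction with
    | empty =>
      intro _ n
      rw [Multiset.map_zero, Multiset.prod_zero, coeff_one]
      split_ifs <;> simp
    | cons r m ih =>
      intro hm n
      have ihm := ih fun s hs => hm s (Multiset.mem_cons_of_mem hs)
      rw [Multiset.map_cons, Multiset.prod_cons, sub_mul, coeff_sub, sub_eq_add_neg]
      refine (IsUltrametricDist.norm_add_le_max _ _).trans (max_le ?_ ?_)
      · cases n with
        | zero => simp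
        | succ n => rw [coeff_X_mul]; exact ihm n
      · rw [norm_neg, coeff_C_mul, norm_mul]
        exact mul_le_one₀ (hm r (Multiset.mem_cons_self r m)) (norm_nonneg _) (ihm n)
  have hall : ∀ r ∈ ((minpoly ℚ x).map (algebraMap ℚ (PadicAlgCl p))).roots, ‖r‖ ≤ 1 := by
    intro r hr
    refine hno r ?_
    have h := isRoot_of_mem_roots hr
    rwa [IsRoot, eval_map, ← aeval_def] at h
  have h := key _ hall i
  rw [← hroots, coeff_map, ← hcdef, eq_ratCast] at h
  rw [← PadicAlgCl.norm_extends, map_ratCast] at hc1
  linarith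

/-- A transcendental element has norm different from one under some homomorphism to an algebraic
closure of any suitable complete normed field with a transcendental element of norm `≠ 1`. -/
theorem exists_place_of_complete {k K₀ F : Type} [Field k] [Field K₀] [Countable K₀]
    [Algebra k K₀] [NontriviallyNormedField F] [CompleteSpace F] [IsUltrametricDist F]
    (i : RatFunc k →+* F) (hi : ‖i RatFunc.X‖ ≠ 1) {l : K₀} (hl : Transcendental k l) :
    ∃ (L : Type) (_ : NormedField L) (φ : K₀ →+* L), ‖φ l‖ ≠ 1 := by
  have : Uncountable F := by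
    rw [← Cardinal.aleph0_lt_mk_iff]
    exact Cardinal.aleph0_lt_continuum.trans_le
      (continuum_le_cardinal_of_nontriviallyNormedField F)
  have : Uncountable (AlgebraicClosure F) :=
    (algebraMap F (AlgebraicClosure F)).injective.uncountable
  let i₁ : RatFunc k →+* K₀ :=
    RatFunc.liftRingHom (aeval l : k[X] →ₐ[k] K₀).toRingHom
      (nonZeroDivisors_le_comap_nonZeroDivisors_of_injective _
        (transcendental_iff_injective.mp hl))
  have : Countable (RatFunc k) := i₁.injective.countable
  obtain ⟨φ, hφ⟩ := exists_hom_to_algClosed i₁ ((algebraMap F (AlgebraicClosure F)).comp i)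
  refine ⟨AlgebraicClosure F, spectralNorm.normedField F (AlgebraicClosure F), φ, ?_⟩
  have h1 : i₁ RatFunc.X = l := by
    have h := RatFunc.liftRingHom_algebraMap (φ := (aeval l : k[X] →ₐ[k] K₀).toRingHom)
      (nonZeroDivisors_le_comap_nonZeroDivisors_of_injective _
        (transcendental_iff_injective.mp hl)) X
    rw [RatFunc.algebraMap_X] at h
    exact h.trans (aeval_X l)
  show spectralNorm F (AlgebraicClosure F) (φ l) ≠ 1
  rw [← h1, ← RingHom.comp_apply, hφ, RingHom.comp_apply, spectralNorm_extends]
  exact hi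

/-- A transcendental element has norm different from one somewhere. -/
theorem exists_place_transcendental {k K₀ : Type} [Field k] [Field K₀] [Countable K₀]
    [Algebra k K₀] {l : K₀} (hl : Transcendental k l) :
    ∃ (L : Type) (_ : NormedField L) (φ : K₀ →+* L), ‖φ l‖ ≠ 1 := by
  set t : LaurentSeries k := HahnSeries.single (1 : ℤ) 1 with ht
  let i : RatFunc k →+* LaurentSeries k :=
    IsFractionRing.lift (FaithfulSMul.algebraMap_injective k[X] (LaurentSeries k))
  have hiX : i RatFunc.X = t := by
    rw [← RatFunc.algebraMap_X]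
    simp only [i, IsFractionRing.lift_algebraMap, ht]
    simp
  have htv : (Valued.v : Valuation (LaurentSeries k) (WithZero (Multiplicative ℤ))) t = WithZero.exp (-1 : ℤ) := by
    exact LaurentSeries.valuation_single_zpow k 1
  have ht0 : t ≠ 0 := HahnSeries.single_ne_zero one_ne_zero
  have ht1 : (Valued.v : Valuation (LaurentSeries k) (WithZero (Multiplicative ℤ))) t < 1 := by
    rw [htv, ← WithZero.exp_zero]
    exact WithZero.exp_lt_exp.mpr (by norm_num)
  have : (Valued.v : Valuation (LaurentSeries k) (WithZero (Multiplicative ℤ))).IsNontrivial :=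
    ⟨⟨t, (Valuation.ne_zero_iff _).mpr ht0, ht1.ne⟩⟩
  let : (Valued.v : Valuation (LaurentSeries k) (WithZero (Multiplicative ℤ))).RankOne :=
    (Valuation.nonempty_rankOne_iff_mulArchimedean.mpr inferInstance).some
  let : NontriviallyNormedField (LaurentSeries k) :=
    Valued.toNontriviallyNormedField (LaurentSeries k) (WithZero (Multiplicative ℤ))
  have hu : IsUltrametricDist (LaurentSeries k) :=
    IsUltrametricDist.isUltrametricDist_of_forall_norm_natCast_le_one fun n => by
      rw [Valued.toNormedField.norm_le_one_iff]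
      induction n with
      | zero => simp
      | succ n ih =>
        rw [Nat.cast_succ]
        exact (Valuation.map_add _ _ _).trans (max_le ih (Valuation.map_one _).le)
  refine exists_place_of_complete (F := LaurentSeries k) i ?_ hl
  rw [hiX]
  exact (Valued.toNormedField.norm_lt_one_iff.mpr ht1).ne

/-- An element of a countable field that is not a root of unity has norm different from one under
some homomorphism to a normed field. -/
theorem exists_place {K₀ : Type} [Field K₀] [Countable K₀] {l : K₀} (hl0 : l ≠ 0)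
    (hl : ∀ m : ℕ, 0 < m → l ^ m ≠ 1) :
    ∃ (L : Type) (_ : NormedField L) (φ : K₀ →+* L), ‖φ l‖ ≠ 1 := by
  obtain ⟨p, hp⟩ := CharP.exists K₀
  rcases CharP.char_is_prime_or_zero K₀ p with hpp | hp0
  · have : Fact p.Prime := ⟨hpp⟩
    let : Algebra (ZMod p) K₀ := ZMod.algebra K₀ p
    refine exists_place_transcendental (k := ZMod p) fun halg => ?_
    have : FiniteDimensional (ZMod p) (IntermediateField.adjoin (ZMod p) {l}) :=
      IntermediateField.adjoin.finiteDimensional halg.isIntegral
    have : Finite (IntermediateField.adjoin (ZMod p) {l}) := Module.finite_of_finite (ZMod p)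
    set y := IntermediateField.AdjoinSimple.gen (ZMod p) l
    have hy : (y : K₀) = l := rfl
    have hy0 : y ≠ 0 := fun h => hl0 (by rw [← hy, h]; rfl)
    obtain ⟨m, hm, hm1⟩ :=
      isOfFinOrder_iff_pow_eq_one.mp (isOfFinOrder_of_finite (Units.mk0 y hy0))
    refine hl m hm ?_
    have h2 : y ^ m = 1 := by
      rw [← Units.val_mk0 hy0, ← Units.val_pow_eq_pow_val, hm1, Units.val_one]
    rw [← hy, ← SubmonoidClass.coe_pow, h2]
    rfl
  · subst hp0
    have : CharZero K₀ := CharP.charP_to_charZero K₀
    by_cases halg : IsAlgebraic ℚ l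
    · let E := IntermediateField.adjoin ℚ ({l} : Set K₀)
      have : FiniteDimensional ℚ E := IntermediateField.adjoin.finiteDimensional halg.isIntegral
      have : NumberField E := ⟨⟩
      set y : E := IntermediateField.AdjoinSimple.gen ℚ l with hy
      have hyl : algebraMap E K₀ y = l := rfl
      by_cases hint : IsIntegral ℤ l
      · have hyi : IsIntegral ℤ y :=
          (isIntegral_algebraMap_iff (algebraMap E K₀).injective).mp (by rw [hyl]; exact hint)
        obtain ⟨ψ, hψ⟩ : ∃ ψ : E →+* ℂ, ‖ψ y‖ ≠ 1 := by
          by_contra h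
          push Not at h
          obtain ⟨m, hm, hm1⟩ := NumberField.Embeddings.pow_eq_one_of_norm_eq_one E ℂ hyi h
          exact hl m hm (by rw [← hyl, ← map_pow, hm1, map_one])
        have : Countable E := (algebraMap E K₀).injective.countable
        have : Uncountable ℂ := by
          rw [← Cardinal.aleph0_lt_mk_iff, Cardinal.mk_complex]
          exact Cardinal.aleph0_lt_continuum
        obtain ⟨φ, hφ⟩ := exists_hom_to_algClosed (algebraMap E K₀) ψ
        refine ⟨ℂ, inferInstance, φ, ?_⟩
        rw [← hyl, ← RingHom.comp_apply, hφ]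
        exact hψ
      · obtain ⟨q, hq, r, hr, hr1⟩ := exists_padic_gt_one l halg hint
        have : Uncountable (PadicAlgCl q) := by
          have : Uncountable ℚ_[q] := by
            rw [← Cardinal.aleph0_lt_mk_iff]
            exact Cardinal.aleph0_lt_continuum.trans_le
              (continuum_le_cardinal_of_nontriviallyNormedField ℚ_[q])
          exact (algebraMap ℚ_[q] (PadicAlgCl q)).injective.uncountable
        have hmem : r ∈ (minpoly ℚ l).aroots (PadicAlgCl q) :=
          mem_aroots.mpr ⟨minpoly.ne_zero halg.isIntegral, hr⟩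
        let ψ : E →ₐ[ℚ] PadicAlgCl q :=
          (IntermediateField.algHomAdjoinIntegralEquiv ℚ halg.isIntegral).symm ⟨r, hmem⟩
        have : Countable E := (algebraMap E K₀).injective.countable
        obtain ⟨φ, hφ⟩ := exists_hom_to_algClosed (algebraMap E K₀) ψ.toRingHom
        refine ⟨PadicAlgCl q, inferInstance, φ, ?_⟩
        rw [← hyl, ← RingHom.comp_apply, hφ]
        show ‖ψ y‖ ≠ 1
        have hψy : ψ y = r :=
          IntermediateField.algHomAdjoinIntegralEquiv_symm_apply_gen ℚ halg.isIntegral ⟨r, hmem⟩
        rw [hψy]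
        exact hr1.ne'
    · exact exists_place_transcendental (k := ℚ) halg

end Vale.Agent.P184
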