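import Vale.Agent.P184.Smooth

/-! Every idempotent of `ℓ¹(G, A)` is close to one decaying exponentially with respect to a
given subadditive length. -/

set_option linter.unusedSectionVars false

namespace Vale.Agent.P184

open scoped Classical Topology
open Filter

variable {G A : Type} [Group G] [NormedRing A] [CompleteSpace A]

/-- A submultiplicative weight that is at least one. -/
structure MWeight (G : Type) [Group G] where
  w : G → ℝ
  one_le : ∀ g, 1 ≤ w g
  submul : ∀ g h, w (g * h) ≤ w g * w h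

namespace L1

variable (W : MWeight G)

/-- Finiteness of the multiplicatively weighted norm. -/
def MFin (a : L1 G A) : Prop := Summable fun g => W.w g * ‖a g‖

/-- The multiplicatively weighted norm. -/
noncomputable def mn (a : L1 G A) : ℝ := ∑' g, W.w g * ‖a g‖

variable {W}

lemma w_nonneg (g : G) : 0 ≤ W.w g := zero_le_one.trans (W.one_le g)

lemma mn_nonneg (a : L1 G A) : 0 ≤ mn W a :=
  tsum_nonneg fun g => mul_nonneg (w_nonneg g) (norm_nonneg _)

lemma nm_le_mn {a : L1 G A} (ha : MFin W a) : nm a ≤ mn W a :=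
  a.summable'.tsum_le_tsum (fun g => le_mul_of_one_le_left (norm_nonneg _) (W.one_le g)) ha

lemma mfin_of_bound {a : L1 G A} {u : G → ℝ} (hu : Summable u)
    (h : ∀ g, W.w g * ‖a g‖ ≤ u g) : MFin W a :=
  Summable.of_nonneg_of_le (fun g => mul_nonneg (w_nonneg g) (norm_nonneg _)) h hu

lemma mfin_add {a b : L1 G A} (ha : MFin W a) (hb : MFin W b) :
    MFin W (a + b) ∧ mn W (a + b) ≤ mn W a + mn W b := by
  have hle : ∀ g, W.w g * ‖(a + b) g‖ ≤ W.w g * ‖a g‖ + W.w g * ‖b g‖ := fun g => by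
    rw [← mul_add]
    exact mul_le_mul_of_nonneg_left (norm_add_le _ _) (w_nonneg g)
  have hs : MFin W (a + b) := mfin_of_bound (Summable.add ha hb) hle
  refine ⟨hs, ?_⟩
  rw [mn, mn, mn, ← Summable.tsum_add ha hb]
  exact Summable.tsum_le_tsum hle hs (Summable.add ha hb)

lemma mfin_sub {a b : L1 G A} (ha : MFin W a) (hb : MFin W b) :
    MFin W (a - b) ∧ mn W (a - b) ≤ mn W a + mn W b := by
  have hle : ∀ g, W.w g * ‖(a - b) g‖ ≤ W.w g * ‖a g‖ + W.w g * ‖b g‖ := fun g => by
    rw [← mul_add]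
    exact mul_le_mul_of_nonneg_left (norm_sub_le _ _) (w_nonneg g)
  have hs : MFin W (a - b) := mfin_of_bound (Summable.add ha hb) hle
  refine ⟨hs, ?_⟩
  rw [mn, mn, mn, ← Summable.tsum_add ha hb]
  exact Summable.tsum_le_tsum hle hs (Summable.add ha hb)

lemma mfin_mul {a b : L1 G A} (ha : MFin W a) (hb : MFin W b) :
    MFin W (a * b) ∧ mn W (a * b) ≤ mn W a * mn W b := by
  have hwa : Summable fun g => W.w g * ‖a g‖ := ha
  have hwb : Summable fun g => W.w g * ‖b g‖ := hb
  have h1 : Summable fun p : G × G => W.w p.1 * ‖a p.1‖ * (W.w p.2 * ‖b p.2‖) :=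
    Summable.mul_of_nonneg (f := fun g => W.w g * ‖a g‖) (g := fun g => W.w g * ‖b g‖) hwa hwb
      (fun g => mul_nonneg (w_nonneg g) (norm_nonneg _))
      (fun g => mul_nonneg (w_nonneg g) (norm_nonneg _))
  have hF' : Summable fun p : G × G =>
      W.w p.2 * ‖a p.2‖ * (W.w (p.2⁻¹ * p.1) * ‖b (p.2⁻¹ * p.1)‖) :=
    summable_shear_of (F := fun p => W.w p.1 * ‖a p.1‖ * (W.w p.2 * ‖b p.2‖)) h1
  have hle : ∀ g, W.w g * ‖(a * b) g‖
      ≤ ∑' h, W.w h * ‖a h‖ * (W.w (h⁻¹ * g) * ‖b (h⁻¹ * g)‖) := by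
    intro g
    have hconv := mul_le_mul_of_nonneg_left (norm_mul_apply_le a b g) (w_nonneg (W := W) g)
    refine le_trans hconv ?_
    rw [← tsum_mul_left]
    refine Summable.tsum_le_tsum (fun h => ?_) ((summable_conv_norm a b g).mul_left _)
      (hF'.prod_factor g)
    have hw := W.submul h (h⁻¹ * g)
    rw [mul_inv_cancel_left] at hw
    calc W.w g * (‖a h‖ * ‖b (h⁻¹ * g)‖)
        ≤ (W.w h * W.w (h⁻¹ * g)) * (‖a h‖ * ‖b (h⁻¹ * g)‖) :=
          mul_le_mul_of_nonneg_right hw (mul_nonneg (norm_nonneg _) (norm_nonneg _))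
      _ = W.w h * ‖a h‖ * (W.w (h⁻¹ * g) * ‖b (h⁻¹ * g)‖) := by ring
  have hs : MFin W (a * b) := mfin_of_bound hF'.prod hle
  refine ⟨hs, ?_⟩
  refine (Summable.tsum_le_tsum hle hs hF'.prod).trans (le_of_eq ?_)
  rw [tsum_shear_of (F := fun p => W.w p.1 * ‖a p.1‖ * (W.w p.2 * ‖b p.2‖)) h1]
  simp only [mn]
  rw [Summable.tsum_mul_tsum hwa hwb h1]

lemma exp_defect_bound {u : L1 G A} (hu : MFin W u) (h1 : mn W (u * u - u) ≤ 1) :
    MFin W (newton u) ∧ MFin W (newton u - u) ∧
      mn W (newton u - u) ≤ (1 + 2 * mn W u) * mn W (u * u - u) ∧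
      mn W (newton u * newton u - newton u) ≤ 7 * (mn W (u * u - u) * mn W (u * u - u)) := by
  set e := u * u - u with he
  have fe : MFin W e := (mfin_sub (mfin_mul hu hu).1 hu).1
  have b0 : 0 ≤ mn W e := mn_nonneg e
  obtain ⟨fue, wue⟩ := mfin_mul hu fe
  obtain ⟨fuu, wuu⟩ := mfin_add fue fue
  obtain ⟨fd, wd⟩ := mfin_sub fe fuu
  obtain ⟨f2, w2⟩ := mfin_mul fe fe
  obtain ⟨f3, w3⟩ := mfin_mul fe f2
  obtain ⟨f33, w33⟩ := mfin_add f3 f3
  obtain ⟨f333, w333⟩ := mfin_add f33 f3
  obtain ⟨f3333, w3333⟩ := mfin_add f333 f3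
  obtain ⟨f22, w22⟩ := mfin_add f2 f2
  obtain ⟨f222, w222⟩ := mfin_add f22 f2
  obtain ⟨ft, wt⟩ := mfin_sub f3333 f222
  have hd : newton u - u = e - (u * e + u * e) := by rw [newton, add_sub_cancel_left]
  have q1 : mn W e * mn W (e * e) ≤ mn W e * mn W e := by
    calc mn W e * mn W (e * e) ≤ mn W e * (mn W e * 1) :=
          mul_le_mul_of_nonneg_left (w2.trans (mul_le_mul_of_nonneg_left h1 b0)) b0
      _ = mn W e * mn W e := by ring
  refine ⟨(mfin_add hu fd).1, by rw [hd]; exact fd, ?_, ?_⟩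
  · rw [hd]
    linarith
  · rw [newton_defect]
    linarith

/-- Newton iteration in the weighted norm. -/
theorem exists_exp_smooth {u₀ : L1 G A} (hu₀ : MFin W u₀) {M : ℝ} (hM : mn W u₀ + 1 ≤ M)
    (ha0 : mn W (u₀ * u₀ - u₀) ≤ 1 / (100 * M)) :
    ∃ f : L1 G A, f * f = f ∧ MFin W f ∧ nm (f - u₀) ≤ 1 / 10 := by
  have hM1 : 1 ≤ M := le_trans (by linarith [mn_nonneg (W := W) u₀]) hM
  set α : ℝ := 1 / (100 * M) with hα
  have hαpos : 0 < α := by positivity
  have hαM : (1 + 2 * M) * α ≤ 1 / 20 := by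
    rw [hα, ← mul_div_assoc, mul_one, div_le_div_iff₀ (by positivity) (by norm_num)]
    nlinarith
  have hαs : α ≤ 1 / 60 := by
    rw [hα]; exact one_div_le_one_div_of_le (by norm_num) (by linarith)
  let u : ℕ → L1 G A := fun n => Nat.rec u₀ (fun _ x => newton x) n
  set Δ : ℕ → L1 G A := fun n => u n * u n - u n with hΔ
  have inv : ∀ n : ℕ, MFin W (u n) ∧ mn W (Δ n) ≤ α * (1 / 2) ^ n ∧
      MFin W (u n - u₀) ∧ mn W (u n - u₀) ≤ 1 / 10 * (1 - (1 / 2) ^ n) ∧
      mn W (u n) ≤ mn W u₀ + 1 / 10 * (1 - (1 / 2) ^ n) := by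
    intro n
    induction n with
    | zero =>
      refine ⟨hu₀, ?_, ?_, ?_, by simp [u]⟩
      · show mn W (u₀ * u₀ - u₀) ≤ _
        rw [pow_zero, mul_one]
        exact ha0
      · show MFin W (u₀ - u₀)
        exact (mfin_sub hu₀ hu₀).1
      · show mn W (u₀ - u₀) ≤ _
        simp [mn, zero_apply]
    | succ n ih =>
      obtain ⟨fu, ha, fd, hd, hn⟩ := ih
      set q : ℝ := (1 / 2) ^ n with hq
      have hq0 : 0 ≤ q := by positivity
      have hq1 : q ≤ 1 := pow_le_one₀ (by norm_num) (by norm_num)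
      have hqs : (1 / 2 : ℝ) ^ (n + 1) = q / 2 := by rw [pow_succ]; ring
      have a0 : 0 ≤ mn W (Δ n) := mn_nonneg _
      have hαq := mul_nonneg hαpos.le hq0
      have haα : mn W (Δ n) ≤ α := ha.trans (mul_le_of_le_one_right hαpos.le hq1)
      obtain ⟨fn, fs, hs, hdd⟩ := exp_defect_bound fu (haα.trans (by linarith))
      have h1 : mn W (newton (u n) - u n) ≤ q / 20 := by
        refine hs.trans ?_
        calc (1 + 2 * mn W (u n)) * mn W (Δ n) ≤ (1 + 2 * M) * (α * q) :=
              mul_le_mul (by linarith) ha a0 (by linarith)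
          _ = ((1 + 2 * M) * α) * q := by ring
          _ ≤ 1 / 20 * q := mul_le_mul_of_nonneg_right hαM hq0
          _ = q / 20 := by ring
      rw [hqs]
      refine ⟨fn, ?_, ?_, ?_, ?_⟩
      · show mn W (newton (u n) * newton (u n) - newton (u n)) ≤ _
        have : mn W (Δ n) * mn W (Δ n) ≤ 1 / 60 * (α * q) :=
          mul_le_mul (haα.trans hαs) ha a0 (by norm_num)
        linarith
      · show MFin W (newton (u n) - u₀)
        have h := (mfin_add fs fd).1
        rwa [sub_add_sub_cancel] at h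
      · show mn W (newton (u n) - u₀) ≤ _
        have h := (mfin_add fs fd).2
        rw [sub_add_sub_cancel] at h
        linarith
      · show mn W (newton (u n)) ≤ _
        have h := (mfin_add fs fu).2
        rw [sub_add_cancel] at h
        linarith
  have hstep : ∀ n, nm (u (n + 1) - u n) ≤ (1 / 2) ^ n / 20 := by
    intro n
    obtain ⟨fu, ha, fd, hd, hn⟩ := inv n
    have hq0 : (0 : ℝ) ≤ (1 / 2) ^ n := by positivity
    have hq1 : (1 / 2 : ℝ) ^ n ≤ 1 := pow_le_one₀ (by norm_num) (by norm_num)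
    have haα : mn W (Δ n) ≤ α := ha.trans (mul_le_of_le_one_right hαpos.le hq1)
    obtain ⟨fn, fs, hs, -⟩ := exp_defect_bound fu (haα.trans (by linarith))
    refine (nm_le_mn fs).trans (hs.trans ?_)
    calc (1 + 2 * mn W (u n)) * mn W (Δ n) ≤ (1 + 2 * M) * (α * (1 / 2) ^ n) :=
          mul_le_mul (by linarith) ha (mn_nonneg _) (by linarith)
      _ = ((1 + 2 * M) * α) * (1 / 2) ^ n := by ring
      _ ≤ 1 / 20 * (1 / 2) ^ n := mul_le_mul_of_nonneg_right hαM hq0
      _ = (1 / 2) ^ n / 20 := by ring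
  have hpt : ∀ g, ∃ l, Tendsto (fun n => u n g) atTop (𝓝 l) := by
    intro g
    refine cauchySeq_tendsto_of_complete
      (cauchySeq_of_le_geometric (1 / 2) (1 / 20) (by norm_num) ?_)
    intro n
    rw [dist_comm, dist_eq_norm]
    refine ((norm_le_nm (u (n + 1) - u n) g).trans (hstep n)).trans (le_of_eq ?_)
    ring
  choose fl hfl using hpt
  have hwsum : ∀ s : Finset G, ∑ g ∈ s, W.w g * ‖fl g‖ ≤ mn W u₀ + 1 := fun s => by
    refine le_of_tendsto (tendsto_finsetSum s fun g _ => ((hfl g).norm).const_mul (W.w g))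
      (Eventually.of_forall fun n => ?_)
    refine ((inv n).1.sum_le_tsum s fun g _ => mul_nonneg (w_nonneg g) (norm_nonneg _)).trans ?_
    have h : mn W (u n) ≤ mn W u₀ + 1 / 10 * (1 - (1 / 2) ^ n) := (inv n).2.2.2.2
    refine le_trans h ?_
    linarith [pow_nonneg (show (0 : ℝ) ≤ 1 / 2 by norm_num) n]
  have hws : Summable fun g => W.w g * ‖fl g‖ :=
    summable_of_sum_le (fun g => mul_nonneg (w_nonneg g) (norm_nonneg _)) hwsum
  have hfs : Summable fun g => ‖fl g‖ :=
    Summable.of_nonneg_of_le (fun _ => norm_nonneg _)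
      (fun g => le_mul_of_one_le_left (norm_nonneg _) (W.one_le g)) hws
  let f : L1 G A := ⟨fl, hfs⟩
  have hdist : ∀ n, nm (f - u n) ≤ (1 / 2) ^ n / 10 := by
    intro n
    have hcau : ∀ k, nm (u (n + k) - u n) ≤ (1 / 2) ^ n / 10 * (1 - (1 / 2) ^ k) := by
      intro k
      induction k with
      | zero => simp [nm, zero_apply]
      | succ k ih =>
        have h2 := nm_add_le (u (n + k + 1) - u (n + k)) (u (n + k) - u n)
        rw [sub_add_sub_cancel] at h2
        refine h2.trans ((add_le_add (hstep (n + k)) ih).trans (le_of_eq ?_))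
        rw [pow_add, pow_succ]
        ring
    refine (f - u n).summable'.tsum_le_of_sum_le fun s => ?_
    have hlim : Tendsto (fun k => ∑ g ∈ s, ‖u (n + k) g - u n g‖) atTop
        (𝓝 (∑ g ∈ s, ‖fl g - u n g‖)) := by
      refine tendsto_finsetSum s fun g _ => (Tendsto.sub ?_ tendsto_const_nhds).norm
      exact (hfl g).comp (tendsto_atTop_mono (fun k => Nat.le_add_left k n) tendsto_id)
    refine le_of_tendsto hlim (Eventually.of_forall fun k => ?_)
    have hle : nm (u (n + k) - u n) ≤ (1 / 2) ^ n / 10 := by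
      refine (hcau k).trans (mul_le_of_le_one_right (by positivity) ?_)
      linarith [pow_nonneg (show (0 : ℝ) ≤ 1 / 2 by norm_num) k]
    exact ((u (n + k) - u n).summable'.sum_le_tsum s fun _ _ => norm_nonneg _).trans hle
  refine ⟨f, ?_, hws, ?_⟩
  · have hb : ∀ n, nm (f * f - f) ≤ (2 * nm f + 3) * (1 / 2) ^ n := by
      intro n
      obtain ⟨fu, ha, -, -, -⟩ := inv n
      set q : ℝ := (1 / 2) ^ n
      have hq0 : 0 ≤ q := by positivity
      have hq1 : q ≤ 1 := pow_le_one₀ (by norm_num) (by norm_num)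
      have hfn : nm (f - u n) ≤ q / 10 := hdist n
      have ha' : nm (u n * u n - u n) ≤ α * q :=
        (nm_le_mn (mfin_sub (mfin_mul fu fu).1 fu).1).trans ha
      have key : f * f - f
          = ((f - u n) * f + u n * (f - u n)) + ((u n * u n - u n) - (f - u n)) := by
        simp only [sub_mul, mul_sub]
        abel
      have hun : nm (u n) ≤ nm f + 1 := by
        have h := nm_sub_le f (f - u n)
        rw [sub_sub_cancel] at h
        linarith
      rw [key]
      have := nm_add_le ((f - u n) * f + u n * (f - u n)) ((u n * u n - u n) - (f - u n))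
      have := nm_add_le ((f - u n) * f) (u n * (f - u n))
      have := nm_sub_le (u n * u n - u n) (f - u n)
      have := (nm_mul_le (f - u n) f).trans
        (mul_le_mul_of_nonneg_right hfn (nm_nonneg _))
      have := (nm_mul_le (u n) (f - u n)).trans
        (mul_le_mul hun hfn (nm_nonneg _) (by linarith [nm_nonneg f]))
      have := mul_nonneg (nm_nonneg f) hq0
      have : α * q ≤ q := mul_le_of_le_one_left hq0 (by linarith)
      linarith
    have hlim : Tendsto (fun n : ℕ => (2 * nm f + 3) * (1 / 2 : ℝ) ^ n) atTop (𝓝 0) := by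
      simpa using (tendsto_pow_atTop_nhds_zero_of_lt_one (r := (1 / 2 : ℝ)) (by norm_num)
        (by norm_num)).const_mul (2 * nm f + 3)
    exact sub_eq_zero.mp (eq_of_nm_le_zero (ge_of_tendsto hlim (Eventually.of_forall hb)))
  · have h := hdist 0
    rw [pow_zero] at h
    exact h

/-- A subadditive length. -/
noncomputable def expWeight (L : Weight G) (s : ℝ) (hs : 0 ≤ s) : MWeight G where
  w g := Real.exp (s * L.w g)
  one_le g := Real.one_le_exp (mul_nonneg hs (L.nonneg g))
  submul g h := by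
    rw [← Real.exp_add, ← mul_add]
    exact Real.exp_le_exp.mpr (mul_le_mul_of_nonneg_left (L.submul g h) hs)

/-- Every idempotent is close to one of exponential decay. -/
theorem exists_decay (L : Weight G) {e : L1 G A} (he : e * e = e) :
    ∃ (s : ℝ) (hs : 0 < s) (f : L1 G A), f * f = f ∧ MFin (expWeight L s hs.le) f ∧
      nm (f - e) < 1 := by
  set M := 2 * (nm e + 1) + 1 with hM
  have hn := nm_nonneg e
  set δ : ℝ := 1 / (2 * (100 * M)) / (4 * (nm e + 1)) with hδdef
  have hδ : 0 < δ := by positivity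
  obtain ⟨S, hS⟩ := (e.summable'.hasSum.eventually (eventually_gt_nhds
    (show nm e - δ < ∑' g, ‖e g‖ from by unfold nm; linarith))).exists
  set u := trunc S e with hu
  have hsplit := e.summable'.sum_add_tsum_compl (s := S)
  have heq : nm (u - e) = ∑' x : ↑(↑S : Set G)ᶜ, ‖e x‖ := by
    rw [nm, tsum_subtype (↑S : Set G)ᶜ (fun x => ‖e x‖)]
    refine tsum_congr fun x => ?_
    by_cases hx : x ∈ S <;> simp [hu, trunc, sub_apply, hx]
  have hne : nm (u - e) < δ := by
    rw [heq]
    unfold nm at hS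
    linarith
  have hδ1 : δ ≤ 1 / 4 := by
    rw [hδdef, div_div, div_le_div_iff₀ (by positivity) (by norm_num)]
    nlinarith
  set R := ∑ g ∈ S, L.w g with hR
  have hR0 : 0 ≤ R := Finset.sum_nonneg fun g _ => L.nonneg g
  set s := Real.log 2 / (2 * R + 1) with hs
  have hspos : 0 < s := by
    have := Real.log_pos one_lt_two
    positivity
  set W := expWeight L s hspos.le with hW
  have hw2 : ∀ g, L.w g ≤ 2 * R → W.w g ≤ 2 := fun g hg => by
    show Real.exp (s * L.w g) ≤ 2
    rw [← Real.le_log_iff_exp_le two_pos] at *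
    calc s * L.w g ≤ s * (2 * R + 1) := mul_le_mul_of_nonneg_left (by linarith) hspos.le
      _ = Real.log 2 := by rw [hs, div_mul_cancel₀]; positivity
  have hLS : ∀ g ∈ S, L.w g ≤ R := fun g hg =>
    Finset.single_le_sum (fun g _ => L.nonneg g) hg
  have hu1 : ∀ g, W.w g * ‖u g‖ ≤ 2 * ‖u g‖ := fun g => by
    by_cases hg : g ∈ S
    · exact mul_le_mul_of_nonneg_right (hw2 g (by linarith [hLS g hg])) (norm_nonneg _)
    · simp [hu, trunc, hg]
  have fu : MFin W u := mfin_of_bound (u.summable'.mul_left 2) hu1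
  have hmu : mn W u ≤ 2 * nm u := by
    rw [mn, nm, ← tsum_mul_left]
    exact Summable.tsum_le_tsum hu1 fu (u.summable'.mul_left 2)
  have hu2 : ∀ g, W.w g * ‖(u * u - u) g‖ ≤ 2 * ‖(u * u - u) g‖ := fun g => by
    by_cases hg : L.w g ≤ 2 * R
    · exact mul_le_mul_of_nonneg_right (hw2 g hg) (norm_nonneg _)
    · have hgS : g ∉ S := fun h => hg (by linarith [hLS g h])
      have h1 : (u * u) g = 0 := by
        rw [mul_apply]
        refine (tsum_congr fun h => ?_).trans tsum_zero
        by_cases h1 : h ∈ S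
        · by_cases h2 : h⁻¹ * g ∈ S
          · exfalso
            apply hg
            have h3 := L.submul h (h⁻¹ * g)
            rw [mul_inv_cancel_left] at h3
            linarith [hLS _ h1, hLS _ h2]
          · simp [hu, trunc, h2]
        · simp [hu, trunc, h1]
      rw [sub_apply, h1]
      simp [hu, trunc, hgS]
  have hd : mn W (u * u - u) ≤ 2 * nm (u * u - u) := by
    rw [mn, nm, ← tsum_mul_left]
    exact Summable.tsum_le_tsum hu2 (mfin_of_bound ((u * u - u).summable'.mul_left 2) hu2)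
      ((u * u - u).summable'.mul_left 2)
  have hnu : nm u ≤ nm e + 1 := by
    have h := nm_add_le (u - e) e
    rw [sub_add_cancel] at h
    linarith
  have hη : nm (u * u - u) ≤ 1 / (2 * (100 * M)) := by
    have key : u * u - u = (u - e) * u + e * (u - e) - (u - e) := by
      simp only [sub_mul, mul_sub, he]
      abel
    rw [key]
    have := nm_sub_le ((u - e) * u + e * (u - e)) (u - e)
    have := nm_add_le ((u - e) * u) (e * (u - e))
    have := (nm_mul_le (u - e) u).trans (mul_le_mul_of_nonneg_left hnu (nm_nonneg _))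
    have := (nm_mul_le e (u - e)).trans
      (mul_le_mul_of_nonneg_right (show nm e ≤ nm e + 1 by linarith) (nm_nonneg _))
    have h4 : nm (u - e) * (4 * (nm e + 1)) ≤ 1 / (2 * (100 * M)) :=
      (le_div_iff₀ (by positivity)).mp hne.le
    nlinarith [nm_nonneg (u - e)]
  have hd' : mn W (u * u - u) ≤ 1 / (100 * M) := by
    refine hd.trans ((mul_le_mul_of_nonneg_left hη zero_le_two).trans (le_of_eq ?_))
    field_simp
  obtain ⟨f, hf, hff, hclose⟩ := exists_exp_smooth fu (M := M) (by linarith) hd'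
  refine ⟨s, hspos, f, hf, hff, ?_⟩
  have h := nm_add_le (f - u) (u - e)
  rw [sub_add_sub_cancel] at h
  linarith

end L1

end Vale.Agent.P184
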