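import Mathlib

/-! Flows (Fox–Magnus cocycles) of words in a free group on its actions. -/

namespace Vale.Agent.P184

open scoped commutatorElement
open Subgroup

variable {S X A : Type} [MulAction (FreeGroup S) X] [AddCommGroup A]

/-- A generator moves `(y, r)` to `(s • y, r + w s y)`. -/
def genStep (w : S → X → A) (s : S) : Equiv.Perm (X × A) where
  toFun p := (FreeGroup.of s • p.1, p.2 + w s p.1)
  invFun p := ((FreeGroup.of s)⁻¹ • p.1, p.2 - w s ((FreeGroup.of s)⁻¹ • p.1))
  left_inv p := by simp
  right_inv p := by simp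

/-- The extended action. -/
def extAct (w : S → X → A) : FreeGroup S →* Equiv.Perm (X × A) :=
  FreeGroup.lift (genStep w)

/-- The cocycle with prescribed values on the generators. -/
def flow (w : S → X → A) (g : FreeGroup S) (y : X) : A :=
  (extAct w g (y, 0)).2

lemma extAct_apply (w : S → X → A) (g : FreeGroup S) :
    ∀ y r, extAct w g (y, r) = (g • y, r + flow w g y) := by
  suffices H : ∀ y, ∃ a, ∀ r, extAct w g (y, r) = (g • y, r + a) by
    intro y r
    obtain ⟨a, ha⟩ := H y
    have h0 : flow w g y = a := by simp [flow, ha 0]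
    rw [h0, ha r]
  induction g using FreeGroup.induction_on with
  | C1 => exact fun y => ⟨0, fun r => by simp⟩
  | of s =>
    exact fun y => ⟨w s y, fun r => by simp [extAct, genStep]⟩
  | inv_of s _ =>
    exact fun y => ⟨- w s ((FreeGroup.of s)⁻¹ • y), fun r => by
      simp [extAct, genStep, sub_eq_add_neg]⟩
  | mul a b iha ihb =>
    intro y
    obtain ⟨u, hu⟩ := ihb y
    obtain ⟨v, hv⟩ := iha (b • y)
    exact ⟨u + v, fun r => by simp [map_mul, hu r, hv (r + u), mul_smul, add_assoc]⟩

lemma flow_mul (w : S → X → A) (g h : FreeGroup S) (y : X) :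
    flow w (g * h) y = flow w h y + flow w g (h • y) := by
  conv_lhs => rw [flow, map_mul, Equiv.Perm.mul_apply, extAct_apply w h]
  rw [extAct_apply w g]
  simp

@[simp] lemma flow_one (w : S → X → A) (y : X) : flow w 1 y = 0 := by simp [flow]

@[simp] lemma flow_of (w : S → X → A) (s : S) (y : X) : flow w (FreeGroup.of s) y = w s y := by
  simp [flow, extAct, genStep]

lemma flow_inv (w : S → X → A) (g : FreeGroup S) (y : X) :
    flow w g⁻¹ y = - flow w g (g⁻¹ • y) := by
  have h := flow_mul w g g⁻¹ y
  rw [mul_inv_cancel, flow_one] at h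
  exact eq_neg_of_add_eq_zero_left h.symm

/-- Naturality in equivariant maps and in the coefficients. -/
lemma flow_natural {Y B : Type} [MulAction (FreeGroup S) Y] [AddCommGroup B]
    (p : X → Y) (hp : ∀ (g : FreeGroup S) x, p (g • x) = g • p x) (L : A →+ B)
    (w : S → X → A) (w' : S → Y → B) (hw : ∀ s x, w' s (p x) = L (w s x))
    (g : FreeGroup S) : ∀ x, flow w' g (p x) = L (flow w g x) := by
  induction g using FreeGroup.induction_on with
  | C1 => simp
  | of s => intro x; simp [hw]
  | inv_of s ih =>
    intro x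
    rw [flow_inv, flow_inv, map_neg, ← hp, ih]
  | mul a b iha ihb =>
    intro x
    rw [flow_mul, flow_mul, map_add, ihb, ← hp, iha]

/-- The cocycle vanishes on commutators of a subgroup that acts trivially. -/
lemma flow_commutator (w : S → X → A) (N : Subgroup (FreeGroup S))
    (hN : ∀ n ∈ N, ∀ x : X, n • x = x) :
    ∀ n ∈ ⁅N, N⁆, ∀ x : X, n • x = x ∧ flow w n x = 0 := by
  let K : Subgroup (FreeGroup S) :=
    { carrier := {n | ∀ x : X, n • x = x ∧ flow w n x = 0}
      one_mem' := fun x => by simp
      mul_mem' := fun {a b} ha hb x => by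
        refine ⟨by rw [mul_smul, (hb x).1, (ha x).1], ?_⟩
        rw [flow_mul, (hb x).2, (hb x).1, (ha x).2, add_zero]
      inv_mem' := fun {a} ha x => by
        have e : a⁻¹ • x = x := inv_smul_eq_iff.mpr (ha x).1.symm
        exact ⟨e, by rw [flow_inv, e, (ha x).2, neg_zero]⟩ }
  show ⁅N, N⁆ ≤ K
  rw [commutator_le]
  intro a ha b hb x
  have ea : ∀ y : X, a • y = y := hN a ha
  have eb : ∀ y : X, b • y = y := hN b hb
  have ea' : ∀ y : X, a⁻¹ • y = y := hN _ (inv_mem ha)
  have eb' : ∀ y : X, b⁻¹ • y = y := hN _ (inv_mem hb)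
  refine ⟨?_, ?_⟩
  · simp [commutatorElement_def, mul_smul, ea, eb, ea', eb']
  · simp [commutatorElement_def, flow_mul, flow_inv, ea, eb, ea', eb']

/-- The unit weights: one free generator for each edge of the Schreier graph. -/
noncomputable def unitW : S → X → (S × X →₀ ℤ) := fun s x => Finsupp.single (s, x) 1

/-- An element of a subgroup with zero flow lies in its derived subgroup. -/
lemma mem_commutator_of_flow_eq_zero (H : Subgroup (FreeGroup S)) (g : FreeGroup S) (hg : g ∈ H)
    (h0 : flow (unitW (X := FreeGroup S ⧸ H)) g (QuotientGroup.mk 1) = 0) : g ∈ ⁅H, H⁆ := by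
  let sec : FreeGroup S ⧸ H → FreeGroup S := fun y => Quotient.out y
  have hsec : ∀ (k : FreeGroup S) y, (sec (k • y))⁻¹ * k * sec y ∈ H := by
    intro k y
    rw [mul_assoc, ← QuotientGroup.eq]
    simp only [sec, QuotientGroup.out_eq']
    show k • y = ((k * Quotient.out y : FreeGroup S) : FreeGroup S ⧸ H)
    conv_lhs => rw [← QuotientGroup.out_eq' y]
    rfl
  let cls : FreeGroup S → FreeGroup S ⧸ H → Additive (Abelianization H) :=
    fun k y => Additive.ofMul (Abelianization.of ⟨_, hsec k y⟩)
  let w : S → FreeGroup S ⧸ H → Additive (Abelianization H) := fun s y => cls (FreeGroup.of s) y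
  have cls_mul : ∀ k l y, cls (k * l) y = cls l y + cls k (l • y) := by
    intro k l y
    simp only [cls]
    rw [add_comm, ← ofMul_mul, ← map_mul]
    congr 2
    ext
    simp [mul_smul, mul_assoc]
  have hflow : ∀ k y, flow w k y = cls k y := by
    intro k
    induction k using FreeGroup.induction_on with
    | C1 =>
      intro y
      rw [flow_one]
      simp only [cls]
      rw [← ofMul_one, ← map_one Abelianization.of]
      congr 2
      ext
      simp
    | of s => intro y; simp [w]
    | inv_of s ih =>
      intro y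
      rw [flow_inv, ih]
      have h := cls_mul (FreeGroup.of s) (FreeGroup.of s)⁻¹ y
      rw [mul_inv_cancel] at h
      have h1 : cls 1 y = 0 := by
        simp only [cls]
        rw [← ofMul_one, ← map_one Abelianization.of]
        congr 2
        ext
        simp
      rw [h1] at h
      exact (eq_neg_of_add_eq_zero_left h.symm).symm
    | mul a b iha ihb =>
      intro y
      rw [flow_mul, iha, ihb, cls_mul]
  let L : (S × (FreeGroup S ⧸ H) →₀ ℤ) →+ Additive (Abelianization H) :=
    (Finsupp.linearCombination ℤ fun p : S × (FreeGroup S ⧸ H) => w p.1 p.2).toAddMonoidHom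
  have hL := flow_natural (X := FreeGroup S ⧸ H) id (fun _ _ => rfl) L unitW w
    (fun s x => by simp [L, unitW]) g (QuotientGroup.mk 1)
  rw [h0, map_zero, id_eq, hflow] at hL
  have hfix : g • (QuotientGroup.mk 1 : FreeGroup S ⧸ H) = QuotientGroup.mk 1 := by
    show ((g * 1 : FreeGroup S) : FreeGroup S ⧸ H) = _
    rw [QuotientGroup.eq]
    simpa using hg
  set y₀ : FreeGroup S ⧸ H := QuotientGroup.mk 1 with hy₀
  have hh : sec y₀ ∈ H := by
    have h := QuotientGroup.out_eq' y₀
    rw [hy₀, QuotientGroup.eq] at h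
    simpa [sec, hy₀] using h
  have hel : Abelianization.of (⟨g, hg⟩ : H) = 1 := by
    have hL' : Abelianization.of (⟨_, hsec g y₀⟩ : H) = 1 := by
      simpa only [cls, ofMul_eq_zero] using hL
    have e : (⟨_, hsec g y₀⟩ : H) = (⟨sec y₀, hh⟩ : H)⁻¹ * ⟨g, hg⟩ * ⟨sec y₀, hh⟩ := by
      ext
      simp [hfix]
    rw [e, map_mul, map_mul, map_inv, mul_comm, ← mul_assoc, mul_inv_cancel, one_mul] at hL'
    exact hL'
  have hker : (⟨g, hg⟩ : H) ∈ commutator H := by
    rw [← Abelianization.ker_of]
    exact hel
  rw [← map_subtype_commutator]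
  exact Subgroup.mem_map_of_mem H.subtype hker

end Vale.Agent.P184
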