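import Vale.Agent.P184.Twist
import Vale.Agent.P184.Flow

/-! The conjecture for `F / [N, N]` with `F / N` residually finite. -/

namespace Vale.Agent.P184

open Subgroup
open scoped commutatorElement Classical

variable {S : Type}

lemma smul_mk_of_mem {N M : Subgroup (FreeGroup S)} [N.Normal] (hNM : N ≤ M)
    {n : FreeGroup S} (hn : n ∈ N) (y : FreeGroup S ⧸ M) : n • y = y := by
  obtain ⟨a, rfl⟩ := QuotientGroup.mk_surjective y
  show ((n * a : FreeGroup S) : FreeGroup S ⧸ M) = _
  rw [QuotientGroup.eq]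
  apply hNM
  have h := (inferInstance : N.Normal).conj_mem _ (inv_mem hn) a⁻¹
  simpa [mul_assoc] using h

lemma exists_finite_flow (N : Subgroup (FreeGroup S)) [N.Normal]
    (hRF : ∀ x, x ∉ N → ∃ M : Subgroup (FreeGroup S), M.Normal ∧ M.FiniteIndex ∧ N ≤ M ∧ x ∉ M)
    (g : FreeGroup S) (hg : g ∉ ⁅N, N⁆) :
    ∃ H : Subgroup (FreeGroup S), H.FiniteIndex ∧ N ≤ H ∧ g ∈ H ∧
      flow (unitW (X := FreeGroup S ⧸ H)) g (QuotientGroup.mk 1) ≠ 0 := by
  by_cases hgN : g ∈ N
  · set c := flow (unitW (X := FreeGroup S ⧸ N)) g (QuotientGroup.mk 1) with hc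
    have hc0 : c ≠ 0 := fun h => hg (mem_commutator_of_flow_eq_zero N g hgN h)
    let T : Finset (FreeGroup S ⧸ N) := c.support.image Prod.snd
    let ι := {p : (FreeGroup S ⧸ N) × (FreeGroup S ⧸ N) // p ∈ T ×ˢ T ∧ p.1 ≠ p.2}
    haveI : Finite ι := ((T ×ˢ T).finite_toSet.subset fun p hp => hp.1).to_subtype
    have hx : ∀ i : ι, (Quotient.out i.1.1)⁻¹ * Quotient.out i.1.2 ∉ N := by
      intro i h
      have := QuotientGroup.eq.mpr h
      simp only [QuotientGroup.out_eq'] at this
      exact i.2.2 this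
    choose M hMn hMf hNM hxM using fun i : ι => hRF _ (hx i)
    let H : Subgroup (FreeGroup S) := ⨅ i, M i
    have hNH : N ≤ H := le_iInf hNM
    refine ⟨H, finiteIndex_iInf hMf, hNH, hNH hgN, ?_⟩
    let p : FreeGroup S ⧸ N → FreeGroup S ⧸ H := Subgroup.quotientMapOfLE hNH
    have hp : ∀ (k : FreeGroup S) x, p (k • x) = k • p x := by
      intro k x
      obtain ⟨a, rfl⟩ := QuotientGroup.mk_surjective x
      rfl
    let f : S × (FreeGroup S ⧸ N) → S × (FreeGroup S ⧸ H) := fun u => (u.1, p u.2)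
    have hnat := flow_natural p hp (Finsupp.mapDomain.addMonoidHom f)
      (unitW (X := FreeGroup S ⧸ N)) (unitW (X := FreeGroup S ⧸ H))
      (fun s x => by simp [unitW, f]) g (QuotientGroup.mk 1)
    have hinj : Set.InjOn f ↑c.support := by
      intro u hu v hv huv
      simp only [f, Prod.mk.injEq] at huv
      refine Prod.ext huv.1 ?_
      by_contra hne
      let i : ι := ⟨(u.2, v.2), Finset.mem_product.mpr
        ⟨Finset.mem_image_of_mem _ hu, Finset.mem_image_of_mem _ hv⟩, hne⟩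
      have e : p (QuotientGroup.mk (Quotient.out u.2)) = p (QuotientGroup.mk (Quotient.out v.2)) := by
        simpa only [QuotientGroup.out_eq'] using huv.2
      exact hxM i (iInf_le M i (QuotientGroup.eq.mp e))
    obtain ⟨u, hu⟩ := Finsupp.support_nonempty_iff.mpr hc0
    intro hzero
    have h2 : Finsupp.mapDomain f c = 0 := by
      have : p (QuotientGroup.mk 1) = QuotientGroup.mk 1 := rfl
      rw [this, hzero] at hnat
      exact hnat.symm
    have h3 := congrArg (fun z => z (f u)) h2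
    simp only [Finsupp.zero_apply] at h3
    rw [Finsupp.mapDomain_apply' (↑c.support) c (subset_refl _) hinj hu] at h3
    exact Finsupp.mem_support_iff.mp hu h3
  · obtain ⟨M, hMn, hMf, hNM, hgM⟩ := hRF g hgN
    let H : Subgroup (FreeGroup S) := M ⊔ Subgroup.zpowers g
    have hgH : g ∈ H := (le_sup_right : Subgroup.zpowers g ≤ H) (Subgroup.mem_zpowers g)
    refine ⟨H, Subgroup.finiteIndex_of_le le_sup_left, hNM.trans le_sup_left, hgH, fun h0 => ?_⟩
    have hle : H ≤ (Subgroup.zpowers (QuotientGroup.mk' M g)).comap (QuotientGroup.mk' M) := by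
      refine sup_le ?_ ?_
      · intro m hm
        rw [Subgroup.mem_comap, show QuotientGroup.mk' M m = 1 from
          (QuotientGroup.eq_one_iff m).mpr hm]
        exact one_mem _
      · rw [Subgroup.zpowers_le, Subgroup.mem_comap]
        exact Subgroup.mem_zpowers _
    have hHM : ⁅H, H⁆ ≤ M := by
      rw [commutator_le]
      intro a ha b hb
      obtain ⟨m, hm⟩ := Subgroup.mem_zpowers_iff.mp (hle ha)
      obtain ⟨n, hn⟩ := Subgroup.mem_zpowers_iff.mp (hle hb)
      apply (QuotientGroup.eq_one_iff _).mp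
      show QuotientGroup.mk' M ⁅a, b⁆ = 1
      rw [map_commutatorElement, ← hm, ← hn, commutatorElement_eq_one_iff_mul_comm]
      rw [← zpow_add, ← zpow_add, add_comm]
    exact hgM (hHM (mem_commutator_of_flow_eq_zero H g hgH h0))

theorem hsTrace_free_ext (N : Subgroup (FreeGroup S)) [N.Normal]
    (hRF : ∀ x, x ∉ N → ∃ M : Subgroup (FreeGroup S), M.Normal ∧ M.FiniteIndex ∧ N ≤ M ∧ x ∉ M)
    (q : ℕ) (e : FreeGroup S ⧸ ⁅N, N⁆ → Matrix (Fin q) (Fin q) ℂ) (he : IsIdemL1 e)
    (C : ConjClasses (FreeGroup S ⧸ ⁅N, N⁆)) (hC : C ≠ ConjClasses.mk 1) : hsTrace C e = 0 := by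
  obtain ⟨gq, rfl⟩ := ConjClasses.mk_surjective C
  obtain ⟨g, rfl⟩ := QuotientGroup.mk_surjective gq
  have hg : g ∉ ⁅N, N⁆ := fun h => hC (by rw [(QuotientGroup.eq_one_iff g).mpr h])
  obtain ⟨H, hHf, hNH, hgH, hne⟩ := exists_finite_flow N hRF g hg
  set X := FreeGroup S ⧸ H
  set cu := flow (unitW (X := X)) g (QuotientGroup.mk 1) with hcu
  obtain ⟨u, hu⟩ := Finsupp.support_nonempty_iff.mpr hne
  haveI : Fintype X := Subgroup.fintypeQuotientOfFiniteIndex
  let w : S → X → ℝ := fun s x => (unitW s x u : ℝ)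
  let L : (S × X →₀ ℤ) →+ ℝ := (Int.castAddHom ℝ).comp (Finsupp.applyAddHom u)
  have hw := flow_natural (X := X) id (fun _ _ => rfl) L unitW w (fun s x => rfl) g
    (QuotientGroup.mk 1)
  have hne' : flow w g (QuotientGroup.mk 1 : X) ≠ 0 := by
    rw [id_eq] at hw
    rw [hw]
    simp only [L, AddMonoidHom.comp_apply, Finsupp.applyAddHom_apply]
    simpa using Finsupp.mem_support_iff.mp hu
  have hkill := flow_commutator w N (fun n hn x => smul_mk_of_mem hNH hn x)
  let σ : FreeGroup S ⧸ ⁅N, N⁆ →* Equiv.Perm X :=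
    QuotientGroup.lift ⁅N, N⁆ (MulAction.toPermHom (FreeGroup S) X) fun n hn =>
      Equiv.ext fun x => (hkill n hn x).1
  let c : FreeGroup S ⧸ ⁅N, N⁆ → X → ℝ := fun gq =>
    Quotient.liftOn' gq (fun k => flow w k) fun a b hab => funext fun x => by
      have hab' : a⁻¹ * b ∈ ⁅N, N⁆ := QuotientGroup.leftRel_apply.mp hab
      have h1 := (hkill _ hab' x)
      calc flow w a x = flow w (a⁻¹ * b) x + flow w a ((a⁻¹ * b) • x) := by
            rw [h1.1, h1.2, zero_add]
        _ = flow w (a * (a⁻¹ * b)) x := (flow_mul w _ _ x).symm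
        _ = flow w b x := by rw [mul_inv_cancel_left]
  refine hsTrace_eq_zero σ c ?_ _ (QuotientGroup.mk 1) ?_ hne' he
  · intro a b x
    obtain ⟨a, rfl⟩ := QuotientGroup.mk_surjective a
    obtain ⟨b, rfl⟩ := QuotientGroup.mk_surjective b
    show flow w (a * b) x = flow w a (b • x) + flow w b x
    rw [flow_mul, add_comm]
  · show g • (QuotientGroup.mk 1 : X) = QuotientGroup.mk 1
    show ((g * 1 : FreeGroup S) : X) = _
    rw [QuotientGroup.eq]
    simpa using hgH

end Vale.Agent.P184
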