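import Vale.Agent.P184.Smooth

/-! Pairing of smoothed idempotents with cyclic one-cocycles dominated by a weight. -/

set_option linter.unusedSectionVars false

namespace Vale.Agent.P184

open scoped Classical

variable {G A : Type} [Group G] [NormedRing A] [CompleteSpace A] [NormedSpace ℂ A]

/-- A cyclic one-cocycle on a conjugacy class, dominated by a weight, with value `v` there. -/
structure Cyc (G : Type) [Group G] (C : ConjClasses G) (L : Weight G) (v : ℝ) where
  t : G → G → ℝ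
  bound : ∀ h k, |t h k| ≤ L.w k
  cocycle : ∀ h k l, ConjClasses.mk (h * k * l) = C → t h (k * l) = t (l * h) k + t (h * k) l
  unit : ∀ k, ConjClasses.mk k = C → t 1 k = v

namespace L1

variable {L : Weight G} {C : ConjClasses G} {v : ℝ} (κ : Cyc G C L v) (T : A →L[ℂ] ℂ)

/-- The summand of the pairing. -/
noncomputable def omTerm (a b : L1 G A) (p : G × G) : ℂ :=
  if ConjClasses.mk (p.1 * p.2) = C then (κ.t p.1 p.2 : ℂ) * T (a p.1 * b p.2) else 0

/-- The pairing. -/
noncomputable def om (a b : L1 G A) : ℂ := ∑' p, omTerm κ T a b p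

variable {κ T}

lemma omTerm_bound (a b : L1 G A) (p : G × G) :
    ‖omTerm κ T a b p‖ ≤ ‖T‖ * (‖a p.1‖ * (L.w p.2 * ‖b p.2‖)) := by
  have h0 : 0 ≤ ‖T‖ * (‖a p.1‖ * (L.w p.2 * ‖b p.2‖)) :=
    mul_nonneg (norm_nonneg _)
      (mul_nonneg (norm_nonneg _) (mul_nonneg (L.nonneg _) (norm_nonneg _)))
  rw [omTerm]
  split_ifs
  · rw [norm_mul, Complex.norm_real, Real.norm_eq_abs]
    calc |κ.t p.1 p.2| * ‖T (a p.1 * b p.2)‖ ≤ L.w p.2 * (‖T‖ * (‖a p.1‖ * ‖b p.2‖)) :=
          mul_le_mul (κ.bound _ _)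
            ((T.le_opNorm _).trans (mul_le_mul_of_nonneg_left (norm_mul_le _ _) (norm_nonneg _)))
            (norm_nonneg _) (L.nonneg _)
      _ = ‖T‖ * (‖a p.1‖ * (L.w p.2 * ‖b p.2‖)) := by ring
  · rwa [norm_zero]

lemma summable_omTerm (a : L1 G A) {b : L1 G A} (hb : Fin' L b) : Summable (omTerm κ T a b) := by
  have hwb : Summable fun g => L.w g * ‖b g‖ := hb
  have h2 : Summable fun p : G × G => ‖a p.1‖ * (L.w p.2 * ‖b p.2‖) :=
    Summable.mul_of_nonneg (f := fun g => ‖a g‖) (g := fun g => L.w g * ‖b g‖) a.summable' hwb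
      (fun _ => norm_nonneg _) fun g => mul_nonneg (L.nonneg g) (norm_nonneg _)
  exact Summable.of_norm_bounded (h2.mul_left ‖T‖) (omTerm_bound a b)

/-- The triple summand with the weight `s`. -/
noncomputable def tri (C : ConjClasses G) (T : A →L[ℂ] ℂ) (s : G → G → G → ℝ) (a b c : L1 G A)
    (r : G × G × G) : ℂ :=
  if ConjClasses.mk (r.1 * r.2.1 * r.2.2) = C
    then (s r.1 r.2.1 r.2.2 : ℂ) * T (a r.1 * b r.2.1 * c r.2.2) else 0

lemma summable_tri (s : G → G → G → ℝ) (hs : ∀ i j k, |s i j k| ≤ L.w j + L.w k)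
    (a : L1 G A) {b c : L1 G A} (hb : Fin' L b) (hc : Fin' L c) :
    Summable (tri C T s a b c) := by
  have hwb : Summable fun g => L.w g * ‖b g‖ := hb
  have hwc : Summable fun g => L.w g * ‖c g‖ := hc
  have hnb : ∀ g, 0 ≤ L.w g * ‖b g‖ := fun g => mul_nonneg (L.nonneg g) (norm_nonneg _)
  have hnc : ∀ g, 0 ≤ L.w g * ‖c g‖ := fun g => mul_nonneg (L.nonneg g) (norm_nonneg _)
  have p1 : Summable fun p : G × G => L.w p.1 * ‖b p.1‖ * ‖c p.2‖ :=
    Summable.mul_of_nonneg (f := fun g => L.w g * ‖b g‖) (g := fun g => ‖c g‖) hwb c.summable'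
      hnb fun _ => norm_nonneg _
  have p2 : Summable fun p : G × G => ‖b p.1‖ * (L.w p.2 * ‖c p.2‖) :=
    Summable.mul_of_nonneg (f := fun g => ‖b g‖) (g := fun g => L.w g * ‖c g‖) b.summable' hwc
      (fun _ => norm_nonneg _) hnc
  have big : Summable fun r : G × G × G =>
      ‖a r.1‖ * (L.w r.2.1 * ‖b r.2.1‖ * ‖c r.2.2‖ + ‖b r.2.1‖ * (L.w r.2.2 * ‖c r.2.2‖)) :=
    Summable.mul_of_nonneg (f := fun g => ‖a g‖)
      (g := fun p : G × G => L.w p.1 * ‖b p.1‖ * ‖c p.2‖ + ‖b p.1‖ * (L.w p.2 * ‖c p.2‖))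
      a.summable' (p1.add p2) (fun _ => norm_nonneg _)
      fun p => add_nonneg (mul_nonneg (hnb p.1) (norm_nonneg _))
        (mul_nonneg (norm_nonneg _) (hnc p.2))
  refine Summable.of_norm_bounded (big.mul_left ‖T‖) fun r => ?_
  obtain ⟨i, j, k⟩ := r
  have hw : 0 ≤ L.w j + L.w k := add_nonneg (L.nonneg j) (L.nonneg k)
  have hrhs : (L.w j + L.w k) * (‖T‖ * (‖a i‖ * ‖b j‖ * ‖c k‖))
      = ‖T‖ * (‖a i‖ * (L.w j * ‖b j‖ * ‖c k‖ + ‖b j‖ * (L.w k * ‖c k‖))) := by ring
  rw [← hrhs, tri]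
  split_ifs
  · rw [norm_mul, Complex.norm_real, Real.norm_eq_abs]
    refine mul_le_mul (hs i j k) ((T.le_opNorm _).trans
      (mul_le_mul_of_nonneg_left ?_ (norm_nonneg _))) (norm_nonneg _) hw
    exact (norm_mul_le _ _).trans (mul_le_mul_of_nonneg_right (norm_mul_le _ _) (norm_nonneg _))
  · rw [norm_zero]
    exact mul_nonneg hw (mul_nonneg (norm_nonneg _)
      (mul_nonneg (mul_nonneg (norm_nonneg _) (norm_nonneg _)) (norm_nonneg _)))

/-- Grouping of the last two of three variables. -/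
def eRight (G : Type) [Group G] : (G × G) × G ≃ G × G × G where
  toFun q := (q.1.1, q.2, q.2⁻¹ * q.1.2)
  invFun r := ((r.1, r.2.1 * r.2.2), r.2.1)
  left_inv q := by simp
  right_inv r := by simp

/-- Grouping of the first two of three variables. -/
def eLeft (G : Type) [Group G] : (G × G) × G ≃ G × G × G where
  toFun q := (q.2, q.2⁻¹ * q.1.1, q.1.2)
  invFun r := ((r.1 * r.2.1, r.2.2), r.1)
  left_inv q := by simp
  right_inv r := by simp

/-- Grouping of the last and first of three variables. -/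
def eCirc (G : Type) [Group G] : (G × G) × G ≃ G × G × G where
  toFun q := (q.2⁻¹ * q.1.1, q.1.2, q.2)
  invFun r := ((r.2.2 * r.1, r.2.1), r.2.2)
  left_inv q := by simp
  right_inv r := by simp

/-- A double sum regrouped along an equivalence. -/
lemma regroup {F : G × G × G → ℂ} (e : (G × G) × G ≃ G × G × G) (hF : Summable F)
    (W : G × G → ℂ) (hW : ∀ p, ∑' i, F (e (p, i)) = W p) : (∑' p, W p) = ∑' r, F r := by
  have hS : Summable fun q => F (e q) := e.summable_iff.mpr hF
  rw [← e.tsum_eq F, hS.tsum_prod]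
  exact tsum_congr fun p => (hW p).symm

lemma om_mul_right (a : L1 G A) {b c : L1 G A} (hb : Fin' L b) (hc : Fin' L c) :
    om κ T a (b * c) = ∑' r, tri C T (fun i j k => κ.t i (j * k)) a b c r := by
  refine regroup (eRight G) (summable_tri _ (fun i j k => (κ.bound _ _).trans (L.submul j k))
    a hb hc) _ fun p => ?_
  obtain ⟨h, m⟩ := p
  simp only [tri, omTerm, eRight, Equiv.coe_fn_mk, mul_inv_cancel_left, mul_assoc]
  split_ifs
  · rw [tsum_mul_left, mul_apply, ← (summable_conv b c m).tsum_mul_left,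
      T.map_tsum ((summable_conv b c m).mul_left _)]
  · exact tsum_zero

lemma om_mul_left (a : L1 G A) {b c : L1 G A} (hb : Fin' L b) (hc : Fin' L c) :
    om κ T (a * b) c = ∑' r, tri C T (fun i j k => κ.t (i * j) k) a b c r := by
  refine regroup (eLeft G) (summable_tri _
    (fun i j k => (κ.bound _ _).trans (le_add_of_nonneg_left (L.nonneg j))) a hb hc) _ fun p => ?_
  obtain ⟨u, k⟩ := p
  simp only [tri, omTerm, eLeft, Equiv.coe_fn_mk, mul_inv_cancel_left]
  split_ifs
  · rw [tsum_mul_left, mul_apply, ← (summable_conv a b u).tsum_mul_right,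
      T.map_tsum ((summable_conv a b u).mul_right _)]
  · exact tsum_zero

lemma om_mul_circ (hT : ∀ x y : A, T (x * y) = T (y * x)) (a : L1 G A) {b c : L1 G A}
    (hb : Fin' L b) (hc : Fin' L c) :
    om κ T (c * a) b = ∑' r, tri C T (fun i j k => κ.t (k * i) j) a b c r := by
  refine regroup (eCirc G) (summable_tri _
    (fun i j k => (κ.bound _ _).trans (le_add_of_nonneg_right (L.nonneg k))) a hb hc) _ fun p => ?_
  obtain ⟨u, k⟩ := p
  simp only [tri, omTerm, eCirc, Equiv.coe_fn_mk, mul_inv_cancel_left]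
  have hcl : ∀ l, ConjClasses.mk (l⁻¹ * u * k * l) = ConjClasses.mk (u * k) := fun l =>
    ConjClasses.mk_eq_mk_iff_isConj.mpr (isConj_iff.mpr ⟨l, by group⟩)
  have htr : ∀ l, T (a (l⁻¹ * u) * b k * c l) = T (c l * a (l⁻¹ * u) * b k) := fun l => by
    rw [hT, ← mul_assoc]
  simp only [hcl, htr]
  split_ifs
  · rw [tsum_mul_left, mul_apply, ← (summable_conv c a u).tsum_mul_right,
      T.map_tsum ((summable_conv c a u).mul_right _)]
  · exact tsum_zero

/-- The Leibniz rule of the pairing. -/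
lemma om_leibniz (hT : ∀ x y : A, T (x * y) = T (y * x)) (a : L1 G A) {b c : L1 G A}
    (hb : Fin' L b) (hc : Fin' L c) :
    om κ T a (b * c) = om κ T (c * a) b + om κ T (a * b) c := by
  rw [om_mul_right a hb hc, om_mul_circ hT a hb hc, om_mul_left a hb hc, ← Summable.tsum_add
    (summable_tri _ (fun i j k => (κ.bound _ _).trans (le_add_of_nonneg_right (L.nonneg k)))
      a hb hc)
    (summable_tri _ (fun i j k => (κ.bound _ _).trans (le_add_of_nonneg_left (L.nonneg j)))
      a hb hc)]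
  refine tsum_congr fun r => ?_
  simp only [tri]
  split_ifs with h
  · rw [κ.cocycle _ _ _ h]
    push_cast
    ring
  · rw [add_zero]

lemma unit_pairing (hT : ∀ x y : A, T (x * y) = T (y * x)) {b c : L1 G A}
    (hb : Fin' L b) (hc : Fin' L c) :
    (v : ℂ) * tau T C (b * c) = om κ T b c + om κ T c b := by
  have hsw : Summable fun p => omTerm κ T c b ((Equiv.prodComm G G) p) :=
    (summable_omTerm (κ := κ) (T := T) c hb).comp_injective
      (i := fun p : G × G => (Equiv.prodComm G G) p) (Equiv.prodComm G G).injective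
  unfold om
  rw [tau_mul_eq, ← tsum_mul_left, ← (Equiv.prodComm G G).tsum_eq (omTerm κ T c b),
    ← Summable.tsum_add (summable_omTerm b hc) hsw]
  refine tsum_congr fun p => ?_
  obtain ⟨h, k⟩ := p
  have hcl : ConjClasses.mk (k * h) = ConjClasses.mk (h * k) :=
    ConjClasses.mk_eq_mk_iff_isConj.mpr (isConj_iff.mpr ⟨h, by group⟩)
  simp only [pairTerm, omTerm, Equiv.prodComm_apply, Prod.swap_prod_mk, hcl, hT (c k) (b h)]
  split_ifs with hh
  · have e := κ.cocycle 1 h k (by rwa [one_mul])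
    rw [mul_one, one_mul, κ.unit _ hh] at e
    have e' : (v : ℂ) = (κ.t k h : ℂ) + (κ.t h k : ℂ) := by exact_mod_cast e
    linear_combination T (b h * c k) * e'
  · simp

/-- An idempotent pairs to zero. -/
theorem mul_tau_eq_zero (κ : Cyc G C L v) (hT : ∀ x y : A, T (x * y) = T (y * x)) {e : L1 G A}
    (he : e * e = e) : (v : ℂ) * tau T C e = 0 := by
  obtain ⟨f, hf, hfin, hclose⟩ := exists_smooth L he
  rw [← tau_eq_of_close hT C hf he hclose]
  have h1 : om κ T f f = 0 := by
    have h := om_leibniz (κ := κ) hT f hfin hfin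
    simp only [hf] at h
    exact left_eq_add.mp h
  have h2 := unit_pairing (κ := κ) hT hfin hfin
  rw [hf, h1, add_zero] at h2
  exact h2

end L1

end Vale.Agent.P184
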