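import Vale.Agent.P184.ExpSmooth
import Vale.Agent.P184.Pairing

/-! Pairing of exponentially decaying idempotents with cyclic one-cocycles of subexponential
growth in both variables. -/

set_option linter.unusedSectionVars false

namespace Vale.Agent.P184

open scoped Classical

variable {G A : Type} [Group G] [NormedRing A] [CompleteSpace A] [NormedSpace ℂ A]

/-- A cyclic one-cocycle on a conjugacy class, dominated by a multiplicative weight in both
variables, with value `v` there. -/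
structure MCyc (G : Type) [Group G] (C : ConjClasses G) (W : MWeight G) (c v : ℝ) where
  t : G → G → ℝ
  nonneg : 0 ≤ c
  bound : ∀ h k, |t h k| ≤ c * (W.w h * W.w k)
  cocycle : ∀ h k l, ConjClasses.mk (h * k * l) = C → t h (k * l) = t (l * h) k + t (h * k) l
  unit : ∀ k, ConjClasses.mk k = C → t 1 k = v

namespace L1

variable {W : MWeight G} {C : ConjClasses G} {c₀ v : ℝ} (κ : MCyc G C W c₀ v) (T : A →L[ℂ] ℂ)

/-- The summand of the pairing. -/
noncomputable def mTerm (a b : L1 G A) (p : G × G) : ℂ :=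
  if ConjClasses.mk (p.1 * p.2) = C then (κ.t p.1 p.2 : ℂ) * T (a p.1 * b p.2) else 0

/-- The pairing. -/
noncomputable def pm (a b : L1 G A) : ℂ := ∑' p, mTerm κ T a b p

variable {κ T}

lemma mTerm_bound (a b : L1 G A) (p : G × G) :
    ‖mTerm κ T a b p‖ ≤ c₀ * ‖T‖ * (W.w p.1 * ‖a p.1‖ * (W.w p.2 * ‖b p.2‖)) := by
  have hw1 := w_nonneg (W := W) p.1
  have hw2 := w_nonneg (W := W) p.2
  have h0 : 0 ≤ c₀ * ‖T‖ * (W.w p.1 * ‖a p.1‖ * (W.w p.2 * ‖b p.2‖)) :=
    mul_nonneg (mul_nonneg κ.nonneg (norm_nonneg _))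
      (mul_nonneg (mul_nonneg hw1 (norm_nonneg _)) (mul_nonneg hw2 (norm_nonneg _)))
  rw [mTerm]
  split_ifs
  · rw [norm_mul, Complex.norm_real, Real.norm_eq_abs]
    calc |κ.t p.1 p.2| * ‖T (a p.1 * b p.2)‖
        ≤ (c₀ * (W.w p.1 * W.w p.2)) * (‖T‖ * (‖a p.1‖ * ‖b p.2‖)) :=
          mul_le_mul (κ.bound _ _)
            ((T.le_opNorm _).trans (mul_le_mul_of_nonneg_left (norm_mul_le _ _) (norm_nonneg _)))
            (norm_nonneg _) (mul_nonneg κ.nonneg (mul_nonneg hw1 hw2))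
      _ = c₀ * ‖T‖ * (W.w p.1 * ‖a p.1‖ * (W.w p.2 * ‖b p.2‖)) := by ring
  · rwa [norm_zero]

lemma summable_mTerm {a b : L1 G A} (ha : MFin W a) (hb : MFin W b) :
    Summable (mTerm κ T a b) := by
  have hwa : Summable fun g => W.w g * ‖a g‖ := ha
  have hwb : Summable fun g => W.w g * ‖b g‖ := hb
  have h2 : Summable fun p : G × G => W.w p.1 * ‖a p.1‖ * (W.w p.2 * ‖b p.2‖) :=
    Summable.mul_of_nonneg (f := fun g => W.w g * ‖a g‖) (g := fun g => W.w g * ‖b g‖) hwa hwb
      (fun g => mul_nonneg (w_nonneg g) (norm_nonneg _))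
      (fun g => mul_nonneg (w_nonneg g) (norm_nonneg _))
  exact Summable.of_norm_bounded (h2.mul_left (c₀ * ‖T‖)) (mTerm_bound a b)

lemma summable_mtri (s : G → G → G → ℝ) (hc : 0 ≤ c₀)
    (hs : ∀ i j k, |s i j k| ≤ c₀ * (W.w i * (W.w j * W.w k)))
    {a b c : L1 G A} (ha : MFin W a) (hb : MFin W b) (hcf : MFin W c) :
    Summable (tri C T s a b c) := by
  have hwa : Summable fun g => W.w g * ‖a g‖ := ha
  have hwb : Summable fun g => W.w g * ‖b g‖ := hb
  have hwc : Summable fun g => W.w g * ‖c g‖ := hcf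
  have hn : ∀ (x : L1 G A) g, 0 ≤ W.w g * ‖x g‖ := fun x g =>
    mul_nonneg (w_nonneg g) (norm_nonneg _)
  have p1 : Summable fun p : G × G => W.w p.1 * ‖b p.1‖ * (W.w p.2 * ‖c p.2‖) :=
    Summable.mul_of_nonneg (f := fun g => W.w g * ‖b g‖) (g := fun g => W.w g * ‖c g‖) hwb hwc
      (hn b) (hn c)
  have big : Summable fun r : G × G × G =>
      W.w r.1 * ‖a r.1‖ * (W.w r.2.1 * ‖b r.2.1‖ * (W.w r.2.2 * ‖c r.2.2‖)) :=
    Summable.mul_of_nonneg (f := fun g => W.w g * ‖a g‖)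
      (g := fun p : G × G => W.w p.1 * ‖b p.1‖ * (W.w p.2 * ‖c p.2‖))
      hwa p1 (hn a) fun p => mul_nonneg (hn b p.1) (hn c p.2)
  refine Summable.of_norm_bounded (big.mul_left (c₀ * ‖T‖)) fun r => ?_
  obtain ⟨i, j, k⟩ := r
  have hw : 0 ≤ c₀ * (W.w i * (W.w j * W.w k)) :=
    mul_nonneg hc (mul_nonneg (w_nonneg i) (mul_nonneg (w_nonneg j) (w_nonneg k)))
  have hrhs : (c₀ * (W.w i * (W.w j * W.w k))) * (‖T‖ * (‖a i‖ * ‖b j‖ * ‖c k‖))
      = c₀ * ‖T‖ * (W.w i * ‖a i‖ * (W.w j * ‖b j‖ * (W.w k * ‖c k‖))) := by ring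
  rw [← hrhs, tri]
  split_ifs
  · rw [norm_mul, Complex.norm_real, Real.norm_eq_abs]
    refine mul_le_mul (hs i j k) ((T.le_opNorm _).trans
      (mul_le_mul_of_nonneg_left ?_ (norm_nonneg _))) (norm_nonneg _) hw
    exact (norm_mul_le _ _).trans (mul_le_mul_of_nonneg_right (norm_mul_le _ _) (norm_nonneg _))
  · rw [norm_zero]
    exact mul_nonneg hw (mul_nonneg (norm_nonneg _)
      (mul_nonneg (mul_nonneg (norm_nonneg _) (norm_nonneg _)) (norm_nonneg _)))

lemma mcyc_bound_right (i j k : G) : |κ.t i (j * k)| ≤ c₀ * (W.w i * (W.w j * W.w k)) :=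
  (κ.bound i (j * k)).trans (mul_le_mul_of_nonneg_left
    (mul_le_mul_of_nonneg_left (W.submul j k) (w_nonneg i)) κ.nonneg)

lemma mcyc_bound_left (i j k : G) : |κ.t (i * j) k| ≤ c₀ * (W.w i * (W.w j * W.w k)) :=
  (κ.bound (i * j) k).trans (le_trans (mul_le_mul_of_nonneg_left
    (mul_le_mul_of_nonneg_right (W.submul i j) (w_nonneg k)) κ.nonneg) (le_of_eq (by ring)))

lemma mcyc_bound_circ (i j k : G) : |κ.t (k * i) j| ≤ c₀ * (W.w i * (W.w j * W.w k)) :=
  (κ.bound (k * i) j).trans (le_trans (mul_le_mul_of_nonneg_left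
    (mul_le_mul_of_nonneg_right (W.submul k i) (w_nonneg j)) κ.nonneg) (le_of_eq (by ring)))

lemma pom_mul_right {a b c : L1 G A} (ha : MFin W a) (hb : MFin W b) (hc : MFin W c) :
    pm κ T a (b * c) = ∑' r, tri C T (fun i j k => κ.t i (j * k)) a b c r := by
  refine regroup (eRight G) (summable_mtri (fun i j k => κ.t i (j * k)) κ.nonneg mcyc_bound_right
    ha hb hc) _ fun p => ?_
  obtain ⟨h, m⟩ := p
  simp only [tri, mTerm, eRight, Equiv.coe_fn_mk, mul_inv_cancel_left, mul_assoc]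
  split_ifs
  · rw [tsum_mul_left, mul_apply, ← (summable_conv b c m).tsum_mul_left,
      T.map_tsum ((summable_conv b c m).mul_left _)]
  · exact tsum_zero

lemma pom_mul_left {a b c : L1 G A} (ha : MFin W a) (hb : MFin W b) (hc : MFin W c) :
    pm κ T (a * b) c = ∑' r, tri C T (fun i j k => κ.t (i * j) k) a b c r := by
  refine regroup (eLeft G) (summable_mtri (fun i j k => κ.t (i * j) k) κ.nonneg mcyc_bound_left
    ha hb hc) _ fun p => ?_
  obtain ⟨u, k⟩ := p
  simp only [tri, mTerm, eLeft, Equiv.coe_fn_mk, mul_inv_cancel_left]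
  split_ifs
  · rw [tsum_mul_left, mul_apply, ← (summable_conv a b u).tsum_mul_right,
      T.map_tsum ((summable_conv a b u).mul_right _)]
  · exact tsum_zero

lemma pom_mul_circ (hT : ∀ x y : A, T (x * y) = T (y * x)) {a b c : L1 G A}
    (ha : MFin W a) (hb : MFin W b) (hc : MFin W c) :
    pm κ T (c * a) b = ∑' r, tri C T (fun i j k => κ.t (k * i) j) a b c r := by
  refine regroup (eCirc G) (summable_mtri (fun i j k => κ.t (k * i) j) κ.nonneg mcyc_bound_circ
    ha hb hc) _ fun p => ?_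
  obtain ⟨u, k⟩ := p
  simp only [tri, mTerm, eCirc, Equiv.coe_fn_mk, mul_inv_cancel_left]
  have hcl : ∀ l, ConjClasses.mk (l⁻¹ * u * k * l) = ConjClasses.mk (u * k) := fun l =>
    ConjClasses.mk_eq_mk_iff_isConj.mpr (isConj_iff.mpr ⟨l, by group⟩)
  have htr : ∀ l, T (a (l⁻¹ * u) * b k * c l) = T (c l * a (l⁻¹ * u) * b k) := fun l => by
    rw [hT, ← mul_assoc]
  simp only [hcl, htr]
  split_ifs
  · rw [tsum_mul_left, mul_apply, ← (summable_conv c a u).tsum_mul_right,
      T.map_tsum ((summable_conv c a u).mul_right _)]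
  · exact tsum_zero

/-- The Leibniz rule of the pairing. -/
lemma pom_leibniz (hT : ∀ x y : A, T (x * y) = T (y * x)) {a b c : L1 G A}
    (ha : MFin W a) (hb : MFin W b) (hc : MFin W c) :
    pm κ T a (b * c) = pm κ T (c * a) b + pm κ T (a * b) c := by
  rw [pom_mul_right ha hb hc, pom_mul_circ hT ha hb hc, pom_mul_left ha hb hc,
    ← Summable.tsum_add (summable_mtri (fun i j k => κ.t (k * i) j) κ.nonneg mcyc_bound_circ
      ha hb hc) (summable_mtri (fun i j k => κ.t (i * j) k) κ.nonneg mcyc_bound_left ha hb hc)]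
  refine tsum_congr fun r => ?_
  simp only [tri]
  split_ifs with h
  · rw [κ.cocycle _ _ _ h]
    push_cast
    ring
  · rw [add_zero]

lemma punit_pairing (hT : ∀ x y : A, T (x * y) = T (y * x)) {b c : L1 G A}
    (hb : MFin W b) (hc : MFin W c) :
    (v : ℂ) * tau T C (b * c) = pm κ T b c + pm κ T c b := by
  have hsw : Summable fun p => mTerm κ T c b ((Equiv.prodComm G G) p) :=
    (summable_mTerm (κ := κ) (T := T) hc hb).comp_injective
      (i := fun p : G × G => (Equiv.prodComm G G) p) (Equiv.prodComm G G).injective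
  unfold pm
  rw [tau_mul_eq, ← tsum_mul_left, ← (Equiv.prodComm G G).tsum_eq (mTerm κ T c b),
    ← Summable.tsum_add (summable_mTerm hb hc) hsw]
  refine tsum_congr fun p => ?_
  obtain ⟨h, k⟩ := p
  have hcl : ConjClasses.mk (k * h) = ConjClasses.mk (h * k) :=
    ConjClasses.mk_eq_mk_iff_isConj.mpr (isConj_iff.mpr ⟨h, by group⟩)
  simp only [pairTerm, mTerm, Equiv.prodComm_apply, Prod.swap_prod_mk, hcl, hT (c k) (b h)]
  split_ifs with hh
  · have e := κ.cocycle 1 h k (by rwa [one_mul])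
    rw [mul_one, one_mul, κ.unit _ hh] at e
    have e' : (v : ℂ) = (κ.t k h : ℂ) + (κ.t h k : ℂ) := by exact_mod_cast e
    linear_combination T (b h * c k) * e'
  · simp

/-- A weighted idempotent pairs to zero. -/
theorem mul_tau_eq_zero_of_mfin (κ : MCyc G C W c₀ v)
    (hT : ∀ x y : A, T (x * y) = T (y * x)) {f : L1 G A} (hf : f * f = f) (hfin : MFin W f) :
    (v : ℂ) * tau T C f = 0 := by
  have h1 : pm κ T f f = 0 := by
    have h := pom_leibniz (κ := κ) hT hfin hfin hfin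
    simp only [hf] at h
    exact left_eq_add.mp h
  have h2 := punit_pairing (κ := κ) hT hfin hfin
  rw [hf, h1, add_zero] at h2
  exact h2

end L1

end Vale.Agent.P184
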