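import Vale.Agent.P184.Displacement
import Vale.Agent.P184.GrowthPairing

/-! Trace coefficients decay exponentially in the length of the class, and vanish at elements
with an equivariant function of subexponential displacement. -/

set_option linter.unusedSectionVars false

namespace Vale.Agent.P184

open scoped Classical
open Subgroup

variable {G : Type} [Group G] {q : ℕ} {e : G → Matrix (Fin q) (Fin q) ℂ}

section
attribute [local instance] Matrix.linftyOpNormedRing Matrix.linftyOpNormedAlgebra
  Matrix.linftyOpNormedAddCommGroup Matrix.linftyOpNormedSpace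

/-- A decaying representative of an idempotent, with the same trace coefficients. -/
theorem exists_decaying (L : Weight G) (he : IsIdemL1 e) :
    ∃ (s : ℝ) (hs : 0 < s) (f : L1 G (Matrix (Fin q) (Fin q) ℂ)), f * f = f ∧
      L1.MFin (L1.expWeight L s hs.le) f ∧
      ∀ C, L1.tau (trL (Fin q)) C f = hsTrace C e := by
  have hsum : Summable fun g => ‖e g‖ :=
    Summable.of_nonneg_of_le (fun _ => norm_nonneg _) (fun g => norm_le_entries (e g))
      (summable_sum fun i _ => summable_sum fun j _ => he.1 i j)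
  let E : L1 G (Matrix (Fin q) (Fin q) ℂ) := ⟨e, hsum⟩
  have hE : E * E = E := by
    apply L1.ext
    funext g
    have hs := L1.summable_conv E E g
    show (∑' h, e h * e (h⁻¹ * g)) = e g
    ext i j
    exact ((Pi.hasSum.mp (Pi.hasSum.mp hs.hasSum i) j).tsum_eq.symm).trans (he.2 g i j)
  obtain ⟨s, hs, f, hf, hfin, hclose⟩ := L1.exists_decay L hE
  exact ⟨s, hs, f, hf, hfin, fun C =>
    L1.tau_eq_of_close (T := trL (Fin q)) (fun a b => Matrix.trace_mul_comm a b) C hf hE hclose⟩

/-- The coefficients decay exponentially in the length of the class. -/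
theorem hsTrace_decay (L : Weight G) (he : IsIdemL1 e) :
    ∃ s c : ℝ, 0 < s ∧ ∀ (g : G) (r : ℝ), (∀ u, IsConj g u → r ≤ L.w u) →
      ‖hsTrace (ConjClasses.mk g) e‖ ≤ c * Real.exp (-(s * r)) := by
  obtain ⟨s, hs, f, -, hfin, htau⟩ := exists_decaying L he
  set W := L1.expWeight L s hs.le
  let D := ∑' u, ∑ i, ∑ j, ‖f u i j‖ * W.w u
  have hent : ∀ (u : G) i j, ‖f u i j‖ ≤ ‖f u‖ := fun u i j => by
    rw [Matrix.linfty_opNorm_def]
    refine le_trans ?_ (NNReal.coe_le_coe.mpr
      (Finset.le_sup (f := fun i => ∑ j, ‖f u i j‖₊) (Finset.mem_univ i)))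
    rw [NNReal.coe_sum]
    exact Finset.single_le_sum (f := fun j => (‖f u i j‖₊ : ℝ)) (fun _ _ => NNReal.coe_nonneg _)
      (Finset.mem_univ j)
  have hfin' : Summable fun u => W.w u * ‖f u‖ := hfin
  have hD : Summable fun u => ∑ i, ∑ j, ‖f u i j‖ * W.w u :=
    summable_sum fun i _ => summable_sum fun j _ =>
      Summable.of_nonneg_of_le (fun u => mul_nonneg (norm_nonneg _) (L1.w_nonneg u))
        (fun u => (mul_comm _ _).trans_le
          (mul_le_mul_of_nonneg_left (hent u i j) (L1.w_nonneg u))) hfin'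
  refine ⟨s, D, hs, fun g r hr => ?_⟩
  rw [← htau]
  refine tsum_of_norm_bounded (g := fun u => (∑ i, ∑ j, ‖f u i j‖ * W.w u) * Real.exp (-(s * r)))
    (hD.hasSum.mul_right _) fun u => ?_
  split_ifs with hu
  · have hru := hr u (ConjClasses.mk_eq_mk_iff_isConj.mp hu).symm
    have h1 : (1 : ℝ) ≤ W.w u * Real.exp (-(s * r)) := by
      show (1 : ℝ) ≤ Real.exp (s * L.w u) * _
      rw [← Real.exp_add]
      exact Real.one_le_exp (by nlinarith)
    calc ‖trL (Fin q) (f u)‖ ≤ ∑ i, ‖f u i i‖ :=
          show ‖∑ i, f u i i‖ ≤ _ from norm_sum_le _ _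
      _ ≤ ∑ i, ∑ j, ‖f u i j‖ := Finset.sum_le_sum fun i _ =>
          Finset.single_le_sum (f := fun j => ‖f u i j‖) (fun _ _ => norm_nonneg _)
            (Finset.mem_univ i)
      _ ≤ (∑ i, ∑ j, ‖f u i j‖) * (W.w u * Real.exp (-(s * r))) :=
          le_mul_of_one_le_right (Finset.sum_nonneg fun _ _ =>
            Finset.sum_nonneg fun _ _ => norm_nonneg _) h1
      _ = (∑ i, ∑ j, ‖f u i j‖ * W.w u) * Real.exp (-(s * r)) := by
          simp only [← Finset.sum_mul]
          ring
  · rw [norm_zero]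
    exact mul_nonneg (Finset.sum_nonneg fun _ _ => Finset.sum_nonneg fun _ _ =>
      mul_nonneg (norm_nonneg _) (L1.w_nonneg u)) (Real.exp_pos _).le

/-- Vanishing at elements with an equivariant function of subexponential displacement. -/
theorem hsTrace_eq_zero_of_subexp (g : G) (L : Weight G) (f φ : G → ℝ)
    (hgrow : ∀ ε : ℝ, 0 < ε → ∃ c, ∀ k x,
      |f (k * x) - f x| ≤ c * Real.exp (ε * (L.w k + L.w (x * g * x⁻¹))))
    (heq : ∀ x z, z ∈ centralizer {g} → f (x * z) = f x + φ z) (hne : φ g ≠ 0)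
    (he : IsIdemL1 e) : hsTrace (ConjClasses.mk g) e = 0 := by
  obtain ⟨s, hs, F, hF, hfin, htau⟩ := exists_decaying L he
  obtain ⟨c, hc⟩ := hgrow (s / 2) (by linarith)
  let cc : G → G → ℝ := fun k w =>
    if h : IsConj g w then
      f (k * Classical.choose (isConj_iff.mp h)) - f (Classical.choose (isConj_iff.mp h))
    else 0
  have hcc : ∀ k w x, x * g * x⁻¹ = w → cc k w = f (k * x) - f x := by
    intro k w x hx
    have h : IsConj g w := isConj_iff.mpr ⟨x, hx⟩
    simp only [cc, dif_pos h]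
    set y := Classical.choose (isConj_iff.mp h)
    have hy : y * g * y⁻¹ = w := Classical.choose_spec (isConj_iff.mp h)
    have hz : x⁻¹ * y ∈ centralizer {g} := by
      rw [Subgroup.mem_centralizer_iff]
      intro g' hg'
      rw [Set.mem_singleton_iff.mp hg']
      have e1 : x * g * x⁻¹ = y * g * y⁻¹ := hx.trans hy.symm
      calc g * (x⁻¹ * y) = x⁻¹ * (x * g * x⁻¹) * y := by group
        _ = x⁻¹ * (y * g * y⁻¹) * y := by rw [e1]
        _ = x⁻¹ * y * g := by group
    have e2 : f y = f x + φ (x⁻¹ * y) := by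
      have h1 := heq x _ hz
      rwa [mul_inv_cancel_left] at h1
    have e3 : f (k * y) = f (k * x) + φ (x⁻¹ * y) := by
      have h1 := heq (k * x) _ hz
      rwa [mul_assoc, mul_inv_cancel_left] at h1
    rw [e2, e3]
    ring
  have hconj : ∀ w, ConjClasses.mk w = ConjClasses.mk g → ∃ x, x * g * x⁻¹ = w := fun w hw =>
    isConj_iff.mp (ConjClasses.mk_eq_mk_iff_isConj.mp hw.symm)
  set W := L1.expWeight L s hs.le
  let κ : MCyc G (ConjClasses.mk g) W |c| (φ g) :=
    { t := fun h k => cc k (h * k)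
      nonneg := abs_nonneg c
      bound := fun h k => by
        have hW : 0 ≤ |c| * (W.w h * W.w k) :=
          mul_nonneg (abs_nonneg _) (mul_nonneg (L1.w_nonneg h) (L1.w_nonneg k))
        show |cc k (h * k)| ≤ _
        by_cases hh : IsConj g (h * k)
        · obtain ⟨x, hx⟩ := isConj_iff.mp hh
          rw [hcc k _ x hx]
          refine (hc k x).trans ?_
          rw [hx]
          refine (mul_le_mul_of_nonneg_right (le_abs_self c) (Real.exp_pos _).le).trans
            (mul_le_mul_of_nonneg_left ?_ (abs_nonneg c))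
          show _ ≤ Real.exp (s * L.w h) * Real.exp (s * L.w k)
          rw [← Real.exp_add]
          apply Real.exp_le_exp.mpr
          have := L.submul h k
          nlinarith [L.nonneg h, L.nonneg k]
        · simp only [cc, dif_neg hh, abs_zero]
          exact hW
      cocycle := fun h k l hC => by
        obtain ⟨x, hx⟩ := hconj _ hC
        show cc (k * l) (h * (k * l)) = cc k (l * h * k) + cc l (h * k * l)
        rw [hcc _ _ x (by rw [hx, mul_assoc]), hcc k _ (l * x) (by
          calc l * x * g * (l * x)⁻¹ = l * (x * g * x⁻¹) * l⁻¹ := by group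
            _ = l * h * k := by rw [hx]; group), hcc l _ x hx, mul_assoc]
        ring
      unit := fun w hw => by
        obtain ⟨x, hx⟩ := hconj _ hw
        show cc w (1 * w) = φ g
        rw [one_mul, hcc w w x hx]
        have h1 : w * x = x * g := by rw [← hx]; group
        have hg : g ∈ centralizer {g} :=
          Subgroup.mem_centralizer_iff.mpr fun g' hg' => by rw [Set.mem_singleton_iff.mp hg']
        rw [h1, heq x g hg]
        ring }
  have h := L1.mul_tau_eq_zero_of_mfin (T := trL (Fin q)) κ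
    (fun a b => Matrix.trace_mul_comm a b) hF hfin
  rw [htau] at h
  exact (mul_eq_zero.mp h).resolve_left (by exact_mod_cast hne)

end

/-- A polynomial is dominated by every exponential. -/
lemma pow_le_exp (M : ℕ) {ε : ℝ} (hε : 0 < ε) :
    ∃ c, ∀ t : ℝ, 0 ≤ t → (1 + t) ^ M ≤ c * Real.exp (ε * t) := by
  refine ⟨M.factorial / ε ^ M * Real.exp ε, fun t ht => ?_⟩
  have h := Real.pow_div_factorial_le_exp (ε * (1 + t)) (by positivity) M
  rw [div_le_iff₀ (by positivity), mul_pow] at h
  calc (1 + t) ^ M ≤ Real.exp (ε * (1 + t)) * M.factorial / ε ^ M := by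
        rw [le_div_iff₀ (by positivity)]
        linarith
    _ = M.factorial / ε ^ M * Real.exp ε * Real.exp (ε * t) := by
        rw [mul_add, mul_one, Real.exp_add]
        ring

/-- Polynomial conjugator length and a polynomially bounded homomorphism on the centralizer. -/
theorem hsTrace_eq_zero_of_poly (g : G) (L : Weight G) (hsymm : ∀ x, L.w x⁻¹ = L.w x)
    (φ : G → ℝ) (N : ℕ) (c : ℝ)
    (hhom : ∀ a b, a ∈ centralizer {g} → b ∈ centralizer {g} → φ (a * b) = φ a + φ b)
    (hφ : ∀ z, z ∈ centralizer {g} → |φ z| ≤ c * (1 + L.w z) ^ N)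
    (hcl : ∀ u, IsConj g u → ∃ x, x * g * x⁻¹ = u ∧ L.w x ≤ c * (1 + L.w u) ^ N)
    (hne : φ g ≠ 0) (he : IsIdemL1 e) : hsTrace (ConjClasses.mk g) e = 0 := by
  choose! sec hsec1 hsec2 using hcl
  have hmem : ∀ x, (sec (x * g * x⁻¹))⁻¹ * x ∈ centralizer {g} := by
    intro x
    have h := hsec1 _ (isConj_iff.mpr ⟨x, rfl⟩)
    set y := sec (x * g * x⁻¹)
    rw [Subgroup.mem_centralizer_iff]
    intro g' hg'
    rw [Set.mem_singleton_iff.mp hg']
    calc g * (y⁻¹ * x) = y⁻¹ * (y * g * y⁻¹) * x := by group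
      _ = y⁻¹ * (x * g * x⁻¹) * x := by rw [h]
      _ = y⁻¹ * x * g := by group
  let f : G → ℝ := fun x => φ ((sec (x * g * x⁻¹))⁻¹ * x)
  refine hsTrace_eq_zero_of_subexp g L f φ (fun ε hε => ?_) (fun x z hz => ?_) hne he
  · set C := |c| + 1 with hC
    obtain ⟨D, hD⟩ := pow_le_exp ((N + 1) * N) (half_pos hε)
    refine ⟨C * (3 * C + 1) ^ N * D, fun k x => ?_⟩
    set u := x * g * x⁻¹ with hu
    set u' := k * x * g * (k * x)⁻¹ with hu'
    have hu'k : u' = k * u * k⁻¹ := by rw [hu', hu]; group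
    set t := 2 * L.w k + L.w u with ht
    have h0k := L.nonneg k
    have h0u := L.nonneg u
    have ht0 : 0 ≤ t := by linarith
    have hpow : ∀ v, L.w v ≤ t → c * (1 + L.w v) ^ N ≤ C * (1 + t) ^ (N + 1) := fun v hv =>
      have h0v := L.nonneg v
      calc c * (1 + L.w v) ^ N ≤ C * (1 + L.w v) ^ N :=
            mul_le_mul_of_nonneg_right (by linarith [le_abs_self c]) (by positivity)
        _ ≤ C * (1 + t) ^ N :=
            mul_le_mul_of_nonneg_left (pow_le_pow_left₀ (by linarith) (by linarith) N)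
              (by positivity)
        _ ≤ C * (1 + t) ^ (N + 1) :=
            mul_le_mul_of_nonneg_left (pow_le_pow_right₀ (by linarith) (Nat.le_succ N))
              (by positivity)
    have hsu : L.w (sec u) ≤ C * (1 + t) ^ (N + 1) :=
      (hsec2 u (isConj_iff.mpr ⟨x, rfl⟩)).trans (hpow u (by linarith))
    have hsu' : L.w (sec u') ≤ C * (1 + t) ^ (N + 1) := by
      refine (hsec2 u' (isConj_iff.mpr ⟨k * x, rfl⟩)).trans (hpow u' ?_)
      rw [hu'k]
      have h1 := L.submul (k * u) k⁻¹
      have h2 := L.submul k u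
      rw [hsymm] at h1
      linarith
    set w := (sec u')⁻¹ * (k * sec u)
    have hwmem : w ∈ centralizer {g} := by
      have h1 := hmem (k * sec u)
      have hs1 := hsec1 u (isConj_iff.mpr ⟨x, rfl⟩)
      have h2 : k * sec u * g * (k * sec u)⁻¹ = u' := by
        calc k * sec u * g * (k * sec u)⁻¹ = k * (sec u * g * (sec u)⁻¹) * k⁻¹ := by group
          _ = k * u * k⁻¹ := by rw [hs1]
          _ = u' := hu'k.symm
      rwa [h2] at h1
    have hdiff : f (k * x) - f x = φ w := by
      have e1 : (sec u')⁻¹ * (k * x) = w * ((sec u)⁻¹ * x) := by simp only [w]; group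
      show φ ((sec u')⁻¹ * (k * x)) - φ ((sec u)⁻¹ * x) = φ w
      rw [e1, hhom w _ hwmem (hmem x)]
      ring
    have hLw : L.w w ≤ 3 * C * (1 + t) ^ (N + 1) := by
      have h1 := L.submul (sec u')⁻¹ (k * sec u)
      have h2 := L.submul k (sec u)
      rw [hsymm] at h1
      have h3 : L.w k ≤ C * (1 + t) ^ (N + 1) :=
        calc L.w k ≤ 1 * (1 + t) ^ 1 := by rw [pow_one, one_mul]; linarith
          _ ≤ C * (1 + t) ^ (N + 1) :=
              mul_le_mul (by linarith [abs_nonneg c]) (pow_le_pow_right₀ (by linarith) (by omega))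
                (by positivity) (by positivity)
      linarith
    have h0w := L.nonneg w
    have hC1 : 1 ≤ C := by linarith [abs_nonneg c]
    rw [hdiff]
    refine (hφ w hwmem).trans ?_
    calc c * (1 + L.w w) ^ N ≤ C * ((3 * C + 1) * (1 + t) ^ (N + 1)) ^ N := by
          refine mul_le_mul (by linarith [le_abs_self c]) (pow_le_pow_left₀ (by linarith) ?_ N)
            (by positivity) (by positivity)
          nlinarith [one_le_pow₀ (n := N + 1) (show (1 : ℝ) ≤ 1 + t by linarith)]
      _ = C * (3 * C + 1) ^ N * (1 + t) ^ ((N + 1) * N) := by rw [mul_pow, ← pow_mul]; ring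
      _ ≤ C * (3 * C + 1) ^ N * (D * Real.exp (ε / 2 * t)) :=
          mul_le_mul_of_nonneg_left (hD t ht0) (by positivity)
      _ ≤ C * (3 * C + 1) ^ N * D * Real.exp (ε * (L.w k + L.w u)) := by
          have hD0 : 0 ≤ D := by
            have h := hD 0 le_rfl
            simp at h
            linarith
          rw [← mul_assoc]
          refine mul_le_mul_of_nonneg_left (Real.exp_le_exp.mpr ?_) (by positivity)
          rw [ht]
          nlinarith
  · have hzg : g * z = z * g := Subgroup.mem_centralizer_iff.mp hz g (Set.mem_singleton g)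
    have h1 : x * z * g * (x * z)⁻¹ = x * g * x⁻¹ := by
      rw [mul_assoc x z g, ← hzg]
      group
    show φ ((sec (x * z * g * (x * z)⁻¹))⁻¹ * (x * z)) = φ ((sec (x * g * x⁻¹))⁻¹ * x) + φ z
    rw [h1, ← mul_assoc]
    exact hhom _ _ (hmem x) hz

end Vale.Agent.P184

namespace Vale.Agent.P184

open Subgroup

/-- A coarsely equivariant function of subexponential displacement suffices. -/
theorem hsTrace_eq_zero_of_coarse_subexp {G : Type} [Group G] {q : ℕ}
    {e : G → Matrix (Fin q) (Fin q) ℂ} (g : G) (L : Weight G) (F φ : G → ℝ) (D : ℝ)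
    (hgrow : ∀ ε : ℝ, 0 < ε → ∃ c, ∀ k x,
      |F (k * x) - F x| ≤ c * Real.exp (ε * (L.w k + L.w (x * g * x⁻¹))))
    (hhom : ∀ a b, a ∈ centralizer {g} → b ∈ centralizer {g} → φ (a * b) = φ a + φ b)
    (heq : ∀ x z, z ∈ centralizer {g} → |F (x * z) - F x - φ z| ≤ D) (hne : φ g ≠ 0)
    (he : IsIdemL1 e) : hsTrace (ConjClasses.mk g) e = 0 := by
  let r : G → G := fun x => Quotient.out (QuotientGroup.mk x : G ⧸ centralizer {g})
  have hr : ∀ x, (r x)⁻¹ * x ∈ centralizer {g} := fun x =>
    QuotientGroup.eq.mp (QuotientGroup.out_eq' _)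
  let f : G → ℝ := fun x => F (r x) + φ ((r x)⁻¹ * x)
  have hfF : ∀ x, |f x - F x| ≤ D := fun x => by
    have h := heq (r x) _ (hr x)
    rw [mul_inv_cancel_left] at h
    rw [abs_sub_comm]
    simpa only [f, sub_add_eq_sub_sub] using h
  have hD : 0 ≤ D := (abs_nonneg _).trans (hfF 1)
  refine hsTrace_eq_zero_of_subexp g L f φ (fun ε hε => ?_) (fun x z hz => ?_) hne he
  · obtain ⟨c, hc⟩ := hgrow ε hε
    refine ⟨c + D + D, fun k x => ?_⟩
    have h1 : (1 : ℝ) ≤ Real.exp (ε * (L.w k + L.w (x * g * x⁻¹))) :=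
      Real.one_le_exp (mul_nonneg hε.le (add_nonneg (L.nonneg _) (L.nonneg _)))
    have := abs_le.mp (hfF (k * x))
    have := abs_le.mp (hfF x)
    have := abs_le.mp (hc k x)
    have := le_mul_of_one_le_right hD h1
    exact abs_le.mpr ⟨by linarith, by linarith⟩
  · have hrz : r (x * z) = r x := by
      simp only [r]
      congr 1
      rw [QuotientGroup.eq]
      simpa using inv_mem hz
    simp only [f, hrz, ← mul_assoc, hhom _ _ (hr x) hz]
    ring

end Vale.Agent.P184
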