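import Vale.Agent.P184.Defs

/-! Convolution of summable functions with values in a complete normed ring, and the
invariance of a trace on idempotents that are close in `ℓ¹` norm. -/

set_option linter.unusedSectionVars false

namespace Vale.Agent.P184

open scoped Classical Topology
open Filter

/-- Absolutely summable functions on a group. -/
@[ext] structure L1 (G A : Type) [NormedRing A] where
  toFun : G → A
  summable' : Summable fun g => ‖toFun g‖

variable {G A : Type} [Group G] [NormedRing A] [CompleteSpace A]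

namespace L1

instance : CoeFun (L1 G A) fun _ => G → A := ⟨L1.toFun⟩

lemma summable (a : L1 G A) : Summable (fun g => a g) :=
  a.summable'.of_norm

/-- The norm. -/
noncomputable def nm (a : L1 G A) : ℝ := ∑' g, ‖a g‖

lemma nm_nonneg (a : L1 G A) : 0 ≤ nm a := tsum_nonneg fun _ => norm_nonneg _

/-- The shear used to pass between the two double sums. -/
def shear (G : Type) [Group G] : G × G ≃ G × G where
  toFun p := (p.1 * p.2, p.1)
  invFun p := (p.2, p.2⁻¹ * p.1)
  left_inv p := by simp
  right_inv p := by simp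

lemma summable_prod_norm (a b : L1 G A) :
    Summable fun p : G × G => ‖a p.1‖ * ‖b p.2‖ :=
  Summable.mul_of_nonneg a.summable' b.summable' (fun _ => norm_nonneg _) fun _ => norm_nonneg _

lemma summable_shear_norm (a b : L1 G A) :
    Summable fun p : G × G => ‖a p.2‖ * ‖b (p.2⁻¹ * p.1)‖ := by
  refine (shear G).summable_iff.mp ?_
  convert! summable_prod_norm a b using 1
  funext p
  simp [shear, Function.comp]

lemma summable_shear (a b : L1 G A) :
    Summable fun p : G × G => a p.2 * b (p.2⁻¹ * p.1) :=
  Summable.of_norm_bounded (summable_shear_norm a b) fun _ => norm_mul_le _ _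

lemma summable_conv (a b : L1 G A) (g : G) : Summable fun h => a h * b (h⁻¹ * g) :=
  (summable_shear a b).prod_factor g

lemma summable_conv_norm (a b : L1 G A) (g : G) : Summable fun h => ‖a h‖ * ‖b (h⁻¹ * g)‖ :=
  (summable_shear_norm a b).prod_factor g

lemma conv_norm_le (a b : L1 G A) (g : G) :
    ‖∑' h, a h * b (h⁻¹ * g)‖ ≤ ∑' h, ‖a h‖ * ‖b (h⁻¹ * g)‖ :=
  tsum_of_norm_bounded (summable_conv_norm a b g).hasSum fun _ => norm_mul_le _ _

lemma summable_norm_conv (a b : L1 G A) :
    Summable fun g => ‖∑' h, a h * b (h⁻¹ * g)‖ :=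
  Summable.of_nonneg_of_le (fun _ => norm_nonneg _) (conv_norm_le a b)
    (summable_shear_norm a b).prod

noncomputable instance : Mul (L1 G A) :=
  ⟨fun a b => ⟨fun g => ∑' h, a h * b (h⁻¹ * g), summable_norm_conv a b⟩⟩

instance : Sub (L1 G A) :=
  ⟨fun a b => ⟨fun g => a g - b g,
    Summable.of_nonneg_of_le (fun _ => norm_nonneg _) (fun _ => norm_sub_le _ _)
      (a.summable'.add b.summable')⟩⟩

instance : Add (L1 G A) :=
  ⟨fun a b => ⟨fun g => a g + b g,
    Summable.of_nonneg_of_le (fun _ => norm_nonneg _) (fun _ => norm_add_le _ _)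
      (a.summable'.add b.summable')⟩⟩

instance : Zero (L1 G A) := ⟨⟨fun _ => 0, by simp⟩⟩

instance : Neg (L1 G A) := ⟨fun a => ⟨fun g => - a g, by simpa using a.summable'⟩⟩

lemma mul_apply (a b : L1 G A) (g : G) : (a * b) g = ∑' h, a h * b (h⁻¹ * g) := rfl
lemma sub_apply (a b : L1 G A) (g : G) : (a - b) g = a g - b g := rfl
lemma add_apply (a b : L1 G A) (g : G) : (a + b) g = a g + b g := rfl
lemma neg_apply (a : L1 G A) (g : G) : (-a) g = - a g := rfl
lemma zero_apply (g : G) : (0 : L1 G A) g = 0 := rfl

noncomputable instance : AddCommGroup (L1 G A) where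
  add_assoc a b c := by ext g; simp [add_apply, add_assoc]
  zero_add a := by ext g; simp [add_apply, zero_apply]
  add_zero a := by ext g; simp [add_apply, zero_apply]
  add_comm a b := by ext g; simp [add_apply, add_comm]
  neg_add_cancel a := by ext g; simp [add_apply, neg_apply, zero_apply]
  sub_eq_add_neg a b := by ext g; simp [sub_apply, add_apply, neg_apply, sub_eq_add_neg]
  nsmul := nsmulRec
  zsmul := zsmulRec

/-- The double sum defining a product of three factors. -/
def triple (a b c : L1 G A) (g : G) : G × G → A :=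
  fun p => a p.1 * b p.2 * c (p.2⁻¹ * p.1⁻¹ * g)

lemma norm_le_nm (c : L1 G A) (g : G) : ‖c g‖ ≤ nm c :=
  c.summable'.le_tsum g fun _ _ => norm_nonneg _

lemma summable_triple (a b c : L1 G A) (g : G) : Summable (triple a b c g) :=
  Summable.of_norm_bounded ((summable_prod_norm a b).mul_right (nm c)) fun _ =>
    (norm_mul_le _ _).trans
      (mul_le_mul (norm_mul_le _ _) (norm_le_nm c _) (norm_nonneg _)
        (mul_nonneg (norm_nonneg _) (norm_nonneg _)))

noncomputable instance : NonUnitalRing (L1 G A) where
  left_distrib a b c := by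
    ext g
    simp only [mul_apply, add_apply, mul_add]
    exact (summable_conv a b g).tsum_add (summable_conv a c g)
  right_distrib a b c := by
    ext g
    simp only [mul_apply, add_apply, add_mul]
    exact (summable_conv a c g).tsum_add (summable_conv b c g)
  zero_mul a := by ext g; simp [mul_apply, zero_apply]
  mul_zero a := by ext g; simp [mul_apply, zero_apply]
  mul_assoc a b c := by
    ext g
    have hS : Summable fun p : G × G => a p.2 * b (p.2⁻¹ * p.1) * c (p.1⁻¹ * g) := by
      refine (shear G).summable_iff.mp ?_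
      convert! summable_triple a b c g using 1
      funext p
      simp [shear, triple, Function.comp, mul_assoc]
    have e1 : ((a * b) * c) g = ∑' p : G × G, a p.2 * b (p.2⁻¹ * p.1) * c (p.1⁻¹ * g) := by
      rw [mul_apply, hS.tsum_prod]
      refine tsum_congr fun h => ?_
      rw [mul_apply, ← (summable_conv a b h).tsum_mul_right]
    have e2 : (a * (b * c)) g = ∑' p : G × G, triple a b c g p := by
      rw [mul_apply, (summable_triple a b c g).tsum_prod]
      refine tsum_congr fun h => ?_
      rw [mul_apply, ← (summable_conv b c _).tsum_mul_left]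
      refine tsum_congr fun k => ?_
      simp only [triple, mul_assoc]
    rw [e1, e2, ← (shear G).tsum_eq]
    refine tsum_congr fun p => ?_
    simp [shear, triple, mul_assoc]

lemma nm_mul_le (a b : L1 G A) : nm (a * b) ≤ nm a * nm b := by
  have h1 : nm (a * b) ≤ ∑' g, ∑' h, ‖a h‖ * ‖b (h⁻¹ * g)‖ :=
    (summable_norm_conv a b).tsum_le_tsum (conv_norm_le a b) (summable_shear_norm a b).prod
  have h2 : nm a * nm b = ∑' p : G × G, ‖a p.1‖ * ‖b p.2‖ :=
    a.summable'.tsum_mul_tsum b.summable' (summable_prod_norm a b)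
  have h3 : (∑' g, ∑' h, ‖a h‖ * ‖b (h⁻¹ * g)‖) = ∑' p : G × G, ‖a p.1‖ * ‖b p.2‖ := by
    rw [← (summable_shear_norm a b).tsum_prod, ← (shear G).tsum_eq]
    refine tsum_congr fun p => ?_
    simp [shear]
  linarith

variable [NormedSpace ℂ A] (T : A →L[ℂ] ℂ)

/-- The trace coefficient at a conjugacy class. -/
noncomputable def tau (C : ConjClasses G) (a : L1 G A) : ℂ :=
  ∑' g, if ConjClasses.mk g = C then T (a g) else 0

variable {T}

lemma tau_term_le (C : ConjClasses G) (a : L1 G A) (g : G) :
    ‖if ConjClasses.mk g = C then T (a g) else 0‖ ≤ ‖T‖ * ‖a g‖ := by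
  split_ifs
  · exact T.le_opNorm _
  · rw [norm_zero]; positivity

lemma norm_tau_le (C : ConjClasses G) (a : L1 G A) : ‖tau T C a‖ ≤ ‖T‖ * nm a :=
  tsum_of_norm_bounded (a.summable'.hasSum.mul_left ‖T‖) (tau_term_le C a)

lemma tau_sub (C : ConjClasses G) (a b : L1 G A) :
    tau T C (a - b) = tau T C a - tau T C b := by
  rw [tau, tau, tau, ← Summable.tsum_sub
    (Summable.of_norm_bounded (a.summable'.mul_left ‖T‖) (tau_term_le C a))
    (Summable.of_norm_bounded (b.summable'.mul_left ‖T‖) (tau_term_le C b))]
  refine tsum_congr fun g => ?_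
  split_ifs <;> simp [sub_apply]

/-- The term of the double sum for the trace of a product. -/
noncomputable def pairTerm (T : A →L[ℂ] ℂ) (C : ConjClasses G) (a b : L1 G A) (p : G × G) : ℂ :=
  if ConjClasses.mk (p.1 * p.2) = C then T (a p.1 * b p.2) else 0

lemma tau_mul_eq (C : ConjClasses G) (a b : L1 G A) :
    tau T C (a * b) = ∑' p, pairTerm T C a b p := by
  let F : G × G → ℂ := fun p =>
    if ConjClasses.mk p.1 = C then T (a p.2 * b (p.2⁻¹ * p.1)) else 0
  have hF : Summable F := by
    refine Summable.of_norm_bounded ((summable_shear_norm a b).mul_left ‖T‖) fun p => ?_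
    simp only [F]
    split_ifs
    · exact (T.le_opNorm _).trans
        (mul_le_mul_of_nonneg_left (norm_mul_le _ _) (norm_nonneg _))
    · rw [norm_zero]; positivity
  have h1 : tau T C (a * b) = ∑' p, F p := by
    rw [tau, hF.tsum_prod]
    refine tsum_congr fun g => ?_
    by_cases hg : ConjClasses.mk g = C
    · simp only [F, hg, if_true, mul_apply]
      exact T.map_tsum (summable_conv a b g)
    · simp [F, hg]
  rw [h1, ← (shear G).tsum_eq]
  refine tsum_congr fun p => ?_
  simp [F, shear, pairTerm]

lemma tau_mul_comm (hT : ∀ x y : A, T (x * y) = T (y * x)) (C : ConjClasses G) (a b : L1 G A) :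
    tau T C (a * b) = tau T C (b * a) := by
  rw [tau_mul_eq, tau_mul_eq, ← (Equiv.prodComm G G).tsum_eq]
  refine tsum_congr fun p => ?_
  have hc : ConjClasses.mk (p.2 * p.1) = ConjClasses.mk (p.1 * p.2) :=
    ConjClasses.mk_eq_mk_iff_isConj.mpr (isConj_iff.mpr ⟨p.1, by group⟩)
  simp [pairTerm, hc, hT (a p.2) (b p.1)]

/-- Close idempotents have equal traces. -/
lemma tau_eq_of_close (hT : ∀ x y : A, T (x * y) = T (y * x)) (C : ConjClasses G)
    {p r : L1 G A} (hp : p * p = p) (hr : r * r = r) (h : nm (p - r) < 1) :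
    tau T C p = tau T C r := by
  set d := p - r with hd
  set t := tau T C with ht
  have tc : ∀ x y, t (x * y) = t (y * x) := fun x y => tau_mul_comm hT C x y
  have ts : ∀ x y, t (x - y) = t x - t y := fun x y => tau_sub C x y
  have hp' : ∀ x, p * (p * x) = p * x := fun x => by rw [← mul_assoc, hp]
  have hr' : ∀ x, r * (r * x) = r * x := fun x => by rw [← mul_assoc, hr]
  have cube : d * (d * d) = (p - r) - (p * (r * p) - r * (p * r)) := by
    simp only [hd, sub_mul, mul_sub, mul_assoc, hp, hr, hp', hr']
    abel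
  have base : t (d * (d * d)) = t d := by
    have a1 : t (p * (r * p)) = t (p * r) := by
      rw [← mul_assoc, tc, hp']
    have a2 : t (r * (p * r)) = t (p * r) := by
      rw [← mul_assoc, tc, hr', tc]
    rw [cube, ts, ts, ts, a1, a2, sub_self, sub_zero, ← ts]
  have sp : Commute (d * d) p := by
    simp only [Commute, SemiconjBy, hd, sub_mul, mul_sub, mul_assoc, hp, hr, hp', hr']
    abel
  have sr : Commute (d * d) r := by
    simp only [Commute, SemiconjBy, hd, sub_mul, mul_sub, mul_assoc, hp, hr, hp', hr']
    abel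
  have step : ∀ y, Commute y p → Commute y r → t (d * (d * d) * y) = t (d * y) := by
    intro y yp yr
    have a1 : t (p * (r * p) * y) = t (p * (r * y)) := by
      have e : p * (r * p) * y = (p * (r * y)) * p := by simp only [mul_assoc, yp.eq]
      rw [e, tc, hp']
    have a2 : t (r * (p * r) * y) = t (p * (r * y)) := by
      have e : r * (p * r) * y = (r * (p * y)) * r := by simp only [mul_assoc, yr.eq]
      rw [e, tc, hr', tc]
      simp only [mul_assoc, yr.eq]
    rw [cube, sub_mul, ts, sub_mul (p * (r * p)), ts, a1, a2, sub_self, sub_zero]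
  let s : ℕ → L1 G A := fun n => Nat.rec (d * d) (fun _ y => d * d * y) n
  have hs : ∀ n, Commute (s n) p ∧ Commute (s n) r := by
    intro n
    induction n with
    | zero => exact ⟨sp, sr⟩
    | succ n ih => exact ⟨sp.mul_left ih.1, sr.mul_left ih.2⟩
  have heq : ∀ n, t (d * s n) = t d := by
    intro n
    induction n with
    | zero => exact base
    | succ n ih =>
      show t (d * (d * d * s n)) = t d
      rw [← mul_assoc, step _ (hs n).1 (hs n).2, ih]
  have hn : ∀ n, nm (s n) ≤ nm d ^ (2 * n + 2) := by
    intro n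
    induction n with
    | zero =>
      refine (nm_mul_le d d).trans (le_of_eq ?_)
      ring
    | succ n ih =>
      refine (nm_mul_le _ _).trans ?_
      calc nm (d * d) * nm (s n) ≤ (nm d * nm d) * nm d ^ (2 * n + 2) :=
            mul_le_mul (nm_mul_le d d) ih (nm_nonneg _)
              (mul_nonneg (nm_nonneg _) (nm_nonneg _))
        _ = nm d ^ (2 * (n + 1) + 2) := by ring
  have hb : ∀ n : ℕ, ‖t d‖ ≤ ‖T‖ * nm d ^ n := by
    intro n
    rw [← heq n]
    refine (norm_tau_le C _).trans (mul_le_mul_of_nonneg_left ?_ (norm_nonneg _))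
    refine (nm_mul_le _ _).trans ?_
    calc nm d * nm (s n) ≤ nm d * nm d ^ (2 * n + 2) :=
          mul_le_mul_of_nonneg_left (hn n) (nm_nonneg _)
      _ = nm d ^ (2 * n + 3) := by ring
      _ ≤ nm d ^ n := pow_le_pow_of_le_one (nm_nonneg _) h.le (by omega)
  have hlim : Tendsto (fun n : ℕ => ‖T‖ * nm d ^ n) atTop (𝓝 0) := by
    simpa using (tendsto_pow_atTop_nhds_zero_of_lt_one (nm_nonneg d) h).const_mul ‖T‖
  have h0 : t d = 0 :=
    norm_le_zero_iff.mp (ge_of_tendsto hlim (Eventually.of_forall hb))
  have : t p - t r = 0 := by rw [← ts]; exact h0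
  exact sub_eq_zero.mp this

end L1

end Vale.Agent.P184
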