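import Vale.Agent.P184.Displacement

/-! Reduction of the vanishing of trace coefficients to finitely generated subgroups. -/

set_option linter.unusedSectionVars false

namespace Vale.Agent.P184

open scoped Classical
open Filter

variable {G : Type} [Group G]

/-- The weight charging exactly the complement of a subgroup. -/
noncomputable def outside (H : Subgroup G) : Weight G where
  w g := if g ∈ H then 0 else 1
  nonneg g := by split_ifs <;> norm_num
  submul g h := by
    by_cases h1 : g ∈ H <;> by_cases h2 : h ∈ H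
    · simp [h1, h2, mul_mem h1 h2]
    all_goals (simp only [h1, h2, if_true, if_false]; split_ifs <;> norm_num)

namespace L1

variable {A : Type} [NormedRing A] [CompleteSpace A]

/-- An idempotent is close to one supported in a finitely generated subgroup containing `g`. -/
lemma exists_supported {e : L1 G A} (he : e * e = e) (g : G) :
    ∃ (s : Finset G) (f : L1 G A), g ∈ Subgroup.closure (s : Set G) ∧ f * f = f ∧
      nm (f - e) < 1 ∧ ∀ x, x ∉ Subgroup.closure (s : Set G) → f x = 0 := by
  have hM : 0 < nm e + 1 := by linarith [nm_nonneg e]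
  set δ := 1 / (100 * (nm e + 1)) / (4 * (nm e + 1)) with hδdef
  have hδ : 0 < δ := by positivity
  obtain ⟨s, hs⟩ := (e.summable'.hasSum.eventually (eventually_gt_nhds
    (show nm e - δ < ∑' g, ‖e g‖ from by unfold nm; linarith))).exists
  let H := Subgroup.closure ((insert g s : Finset G) : Set G)
  have hsH : ∀ x ∈ s, x ∈ H := fun x hx => Subgroup.subset_closure (Finset.mem_insert_of_mem hx)
  set u := trunc s e with hu
  have hsplit := e.summable'.sum_add_tsum_compl (s := s)
  have heq : nm (u - e) = ∑' x : ↑(↑s : Set G)ᶜ, ‖e x‖ := by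
    rw [nm, tsum_subtype (↑s : Set G)ᶜ (fun x => ‖e x‖)]
    refine tsum_congr fun x => ?_
    by_cases hx : x ∈ s <;> simp [hu, trunc, sub_apply, hx]
  have hne : nm (u - e) < δ := by
    rw [heq]
    unfold nm at hs
    linarith
  have hu0 : ∀ x, (outside H).w x * ‖u x‖ = 0 := fun x => by
    by_cases hx : x ∈ s
    · simp [outside, hsH x hx]
    · simp [hu, trunc, hx]
  have hufin : Fin' (outside H) u := by
    show Summable _
    simp only [hu0]
    exact summable_zero
  have hwu : wn (outside H) u = 0 := by simp [wn, hu0]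
  have hfd := fin_sub (fin_mul hufin hufin).1 hufin
  have hwd : wn (outside H) (u * u - u) = 0 := by
    refine le_antisymm (hfd.2.trans ?_) (wn_nonneg _)
    have h := (fin_mul hufin hufin).2
    rw [hwu] at h ⊢
    simpa using h
  obtain ⟨f, hf, hffin, hclose, hw⟩ := exists_smooth_from (outside H) he hufin hne
  rw [hwu, hwd] at hw
  refine ⟨insert g s, f, Subgroup.subset_closure (Finset.mem_insert_self g s), hf, hclose,
    fun x hx => ?_⟩
  have h1 : (outside H).w x * ‖f x‖ ≤ wn (outside H) f :=
    hffin.le_tsum x fun y _ => mul_nonneg ((outside H).nonneg y) (norm_nonneg _)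
  have h2 : (outside H).w x = 1 := if_neg hx
  rw [h2, one_mul] at h1
  exact norm_le_zero_iff.mp (by linarith)

end L1

section
attribute [local instance] Matrix.linftyOpNormedRing Matrix.linftyOpNormedAlgebra
  Matrix.linftyOpNormedAddCommGroup Matrix.linftyOpNormedSpace

/-- Vanishing on finitely generated subgroups implies vanishing. -/
theorem hsTrace_eq_zero_of_fg (g : G)
    (h : ∀ s : Finset G, ∀ x : Subgroup.closure (s : Set G), IsConj g (x : G) →
      ∀ (q : ℕ) (e : Subgroup.closure (s : Set G) → Matrix (Fin q) (Fin q) ℂ), IsIdemL1 e →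
        hsTrace (ConjClasses.mk x) e = 0)
    {q : ℕ} {e : G → Matrix (Fin q) (Fin q) ℂ} (he : IsIdemL1 e) :
    hsTrace (ConjClasses.mk g) e = 0 := by
  have hsum : Summable fun g => ‖e g‖ :=
    Summable.of_nonneg_of_le (fun _ => norm_nonneg _) (fun g => norm_le_entries (e g))
      (summable_sum fun i _ => summable_sum fun j _ => he.1 i j)
  let E : L1 G (Matrix (Fin q) (Fin q) ℂ) := ⟨e, hsum⟩
  have hE : E * E = E := by
    apply L1.ext
    funext g
    have hs := L1.summable_conv E E g
    show (∑' h, e h * e (h⁻¹ * g)) = e g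
    ext i j
    exact ((Pi.hasSum.mp (Pi.hasSum.mp hs.hasSum i) j).tsum_eq.symm).trans (he.2 g i j)
  obtain ⟨s, f, hg, hf, hclose, hsupp⟩ := L1.exists_supported hE g
  let H := Subgroup.closure (s : Set G)
  have htr := L1.tau_eq_of_close (T := trL (Fin q)) (fun a b => Matrix.trace_mul_comm a b)
    (ConjClasses.mk g) hf hE hclose
  show L1.tau (trL (Fin q)) (ConjClasses.mk g) E = 0
  rw [← htr]
  let f' : H → Matrix (Fin q) (Fin q) ℂ := fun x => f x
  have hentry : ∀ i j, Summable fun x : G => ‖f x i j‖ := fun i j => by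
    refine Summable.of_nonneg_of_le (fun _ => norm_nonneg _) (fun x => ?_) f.summable'
    rw [Matrix.linfty_opNorm_def]
    refine le_trans ?_ (NNReal.coe_le_coe.mpr
      (Finset.le_sup (f := fun i => ∑ j, ‖f x i j‖₊) (Finset.mem_univ i)))
    rw [NNReal.coe_sum]
    exact Finset.single_le_sum (f := fun j => (‖f x i j‖₊ : ℝ)) (fun _ _ => NNReal.coe_nonneg _)
      (Finset.mem_univ j)
  have hf' : IsIdemL1 f' := by
    refine ⟨fun i j => (hentry i j).subtype (fun y => y ∈ H), fun x i j => ?_⟩
    have hs := (Pi.hasSum.mp (Pi.hasSum.mp (L1.summable_conv f f (x : G)).hasSum i) j).tsum_eq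
    have h2 : (f * f) (x : G) = f (x : G) := by rw [hf]
    have h3 : (∑' k : G, (f k * f (k⁻¹ * x)) i j) = f (x : G) i j := by
      rw [hs]
      exact congrFun (congrFun h2 i) j
    refine Eq.trans ?_ h3
    refine Function.Injective.tsum_eq (f := fun k : G => (f k * f (k⁻¹ * x)) i j)
      Subtype.val_injective ?_
    intro k hk
    by_contra hnot
    have hkH : k ∉ H := fun hm => hnot ⟨⟨k, hm⟩, rfl⟩
    apply hk
    show (f k * f (k⁻¹ * x)) i j = 0
    rw [hsupp k hkH, Matrix.zero_mul]
    rfl
  let F : H → ℂ := fun x =>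
    if ConjClasses.mk (x : G) = ConjClasses.mk g then (f' x).trace else 0
  have hF : Summable F := by
    refine Summable.of_norm_bounded
      ((summable_sum (s := Finset.univ) fun i _ => hentry i i).subtype (fun y => y ∈ H)) fun x => ?_
    simp only [F]
    split_ifs
    · exact norm_sum_le _ _
    · rw [norm_zero]; exact Finset.sum_nonneg fun i _ => norm_nonneg _
  have h1 : L1.tau (trL (Fin q)) (ConjClasses.mk g) f = ∑' x : H, F x := by
    refine (Function.Injective.tsum_eq
      (f := fun y : G => if ConjClasses.mk y = ConjClasses.mk g then trL (Fin q) (f y) else 0)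
      Subtype.val_injective ?_).symm
    intro k hk
    by_contra hnot
    have hkH : k ∉ H := fun hm => hnot ⟨⟨k, hm⟩, rfl⟩
    apply hk
    show (if ConjClasses.mk k = ConjClasses.mk g then trL (Fin q) (f k) else 0) = 0
    rw [hsupp k hkH, map_zero, ite_self]
  have hS : Summable fun p : (C : ConjClasses H) × {x : H // ConjClasses.mk x = C} =>
      F (Equiv.sigmaFiberEquiv (ConjClasses.mk : H → ConjClasses H) p) :=
    hF.comp_injective (Equiv.sigmaFiberEquiv (ConjClasses.mk : H → ConjClasses H)).injective
  rw [h1, ← (Equiv.sigmaFiberEquiv (ConjClasses.mk : H → ConjClasses H)).tsum_eq F, hS.tsum_sigma]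
  refine (tsum_congr fun C => ?_).trans tsum_zero
  obtain ⟨x₀, rfl⟩ := ConjClasses.mk_surjective C
  by_cases hx₀ : ConjClasses.mk (x₀ : G) = ConjClasses.mk g
  · have hz := h s x₀ (ConjClasses.mk_eq_mk_iff_isConj.mp hx₀.symm) q f' hf'
    refine Eq.trans ?_ hz
    unfold hsTrace
    refine Eq.trans (tsum_congr fun y => ?_)
      (Function.Injective.tsum_eq
        (f := fun y : H => if ConjClasses.mk y = ConjClasses.mk x₀ then (f' y).trace else 0)
        (g := fun y : {y : H // ConjClasses.mk y = ConjClasses.mk x₀} => (y : H))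
        Subtype.val_injective ?_)
    · obtain ⟨y, hy⟩ := y
      have hyG : ConjClasses.mk (y : G) = ConjClasses.mk g := by
        rw [← hx₀, ConjClasses.mk_eq_mk_iff_isConj]
        exact (H.subtype : H →* G).map_isConj (ConjClasses.mk_eq_mk_iff_isConj.mp hy)
      simp [F, Equiv.sigmaFiberEquiv, hy, hyG]
    · intro y hy
      by_contra hnot
      exact hy (if_neg fun hm => hnot ⟨⟨y, hm⟩, rfl⟩)
  · refine (tsum_congr fun y => ?_).trans tsum_zero
    obtain ⟨y, hy⟩ := y
    have hyG : ConjClasses.mk (y : G) ≠ ConjClasses.mk g := fun hc => hx₀ (by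
      rw [← hc, ConjClasses.mk_eq_mk_iff_isConj]
      exact (H.subtype : H →* G).map_isConj (ConjClasses.mk_eq_mk_iff_isConj.mp hy.symm))
    simp [F, Equiv.sigmaFiberEquiv, hyG]

end

end Vale.Agent.P184
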