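import Vale.Agent.P184.LinearCore
import Vale.Agent.P184.Reduce
import Vale.Agent.P184.Embed

/-! Linear groups over arbitrary fields. -/

set_option linter.unusedSectionVars false

namespace Vale.Agent.P184

open scoped Classical
open Matrix Polynomial

variable {G K : Type} [Group G] [Field K] {n : ℕ}

/-- In a finitely generated group everything is defined over a countable field, so an eigenvalue
that is not a root of unity gets absolute value different from one. -/
theorem hsTrace_eq_zero_fg (s : Finset G)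
    (ρ : Subgroup.closure (s : Set G) →* Matrix (Fin n) (Fin n) K)
    (x : Subgroup.closure (s : Set G)) (a : K) (v : Fin n → K) (hv : v ≠ 0)
    (hev : ρ x *ᵥ v = a • v) (ha : ∀ m : ℕ, 0 < m → a ^ m ≠ 1) {q : ℕ}
    {e : Subgroup.closure (s : Set G) → Matrix (Fin q) (Fin q) ℂ} (he : IsIdemL1 e) :
    hsTrace (ConjClasses.mk x) e = 0 := by
  have hinv : ∀ y, ρ y⁻¹ * ρ y = 1 := fun y => by rw [← map_mul, inv_mul_cancel, map_one]
  have ha0 : a ≠ 0 := by
    rintro rfl
    apply hv
    have h := congrArg (fun u => ρ x⁻¹ *ᵥ u) hev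
    simpa [mulVec_mulVec, hinv] using h
  let gens : Set (Subgroup.closure (s : Set G)) := {y | (y : G) ∈ s}
  have hgc : gens.Countable :=
    (s.finite_toSet.preimage Subtype.val_injective.injOn).countable
  let S : Set K := (⋃ y ∈ gens, Set.range (fun p : Fin n × Fin n => ρ y p.1 p.2) ∪
    Set.range (fun p : Fin n × Fin n => ρ y⁻¹ p.1 p.2)) ∪ ({a} ∪ Set.range v)
  let K₀ := Subfield.closure S
  have : Countable K₀ := by
    have hS : S.Countable :=
      (hgc.biUnion fun y _ => (Set.countable_range _).union (Set.countable_range _)).union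
        ((Set.countable_singleton a).union (Set.countable_range v))
    rw [← Cardinal.mk_le_aleph0_iff]
    exact (Subfield.cardinalMk_closure_le_max S).trans (max_le hS.le_aleph0 le_rfl)
  have hent : ∀ y, (∀ i j, ρ y i j ∈ K₀) ∧ ∀ i j, ρ y⁻¹ i j ∈ K₀ := by
    have hone : ∀ i j, (1 : Matrix (Fin n) (Fin n) K) i j ∈ K₀ := fun i j => by
      rw [Matrix.one_apply]
      split_ifs
      · exact K₀.one_mem
      · exact K₀.zero_mem
    have hmul : ∀ M N : Matrix (Fin n) (Fin n) K, (∀ i j, M i j ∈ K₀) → (∀ i j, N i j ∈ K₀) →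
        ∀ i j, (M * N) i j ∈ K₀ := fun M N hM hN i j => by
      rw [Matrix.mul_apply]
      exact K₀.sum_mem fun k _ => K₀.mul_mem (hM i k) (hN k j)
    rintro ⟨y, hy⟩
    induction hy using Subgroup.closure_induction with
    | mem z hz =>
      have hmem : (⟨z, Subgroup.subset_closure hz⟩ : Subgroup.closure (s : Set G)) ∈ gens := hz
      exact ⟨fun i j => Subfield.subset_closure
          (Or.inl (Set.mem_biUnion hmem (Or.inl ⟨(i, j), rfl⟩))),
        fun i j => Subfield.subset_closure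
          (Or.inl (Set.mem_biUnion hmem (Or.inr ⟨(i, j), rfl⟩)))⟩
    | one =>
      have h1 : (⟨1, Subgroup.one_mem _⟩ : Subgroup.closure (s : Set G)) = 1 := rfl
      rw [h1, inv_one, map_one]
      exact ⟨hone, hone⟩
    | mul z w hz hw ihz ihw =>
      have h1 : (⟨z * w, Subgroup.mul_mem _ hz hw⟩ : Subgroup.closure (s : Set G))
          = ⟨z, hz⟩ * ⟨w, hw⟩ := rfl
      rw [h1, _root_.mul_inv_rev, map_mul, map_mul]
      exact ⟨hmul _ _ ihz.1 ihw.1, hmul _ _ ihw.2 ihz.2⟩
    | inv z hz ih =>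
      have h1 : (⟨z⁻¹, Subgroup.inv_mem _ hz⟩ : Subgroup.closure (s : Set G)) = ⟨z, hz⟩⁻¹ := rfl
      rw [h1, inv_inv]
      exact ⟨ih.2, ih.1⟩
  let ρ₀ : Subgroup.closure (s : Set G) →* Matrix (Fin n) (Fin n) K₀ :=
    { toFun := fun y => Matrix.of fun i j => ⟨ρ y i j, (hent y).1 i j⟩
      map_one' := by
        ext i j
        simp [Matrix.one_apply, apply_ite Subtype.val]
      map_mul' := fun y z => by
        ext i j
        simp [Matrix.mul_apply] }
  let a₀ : K₀ := ⟨a, Subfield.subset_closure (Or.inr (Or.inl rfl))⟩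
  let v₀ : Fin n → K₀ := fun i => ⟨v i, Subfield.subset_closure (Or.inr (Or.inr ⟨i, rfl⟩))⟩
  have hv₀ : v₀ ≠ 0 := fun h => hv (funext fun i => congrArg Subtype.val (congrFun h i))
  have hev₀ : ρ₀ x *ᵥ v₀ = a₀ • v₀ := by
    funext i
    apply Subtype.ext
    have h := congrFun hev i
    simpa [ρ₀, a₀, v₀, mulVec, dotProduct] using h
  obtain ⟨L, hL, φ, hφ⟩ := exists_place (K₀ := K₀) (l := a₀)
    (fun h => ha0 (congrArg Subtype.val h))
    (fun m hm h => ha m hm (by simpa using congrArg Subtype.val h))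
  refine hsTrace_eq_zero_of_norm_ne_one (φ.mapMatrix.toMonoidHom.comp ρ₀) x (φ a₀)
    (fun i => φ (v₀ i)) ?_ ?_ hφ he
  · intro h
    exact hv₀ (funext fun i => φ.injective (by simpa using congrFun h i))
  · funext i
    have h := congrArg φ (congrFun hev₀ i)
    rw [RingHom.map_mulVec] at h
    simpa [Function.comp_def] using h

/-- The coefficient vanishes at every class of a linear group with an eigenvalue that is not a
root of unity. -/
theorem hsTrace_eq_zero_linear (ρ : G →* Matrix (Fin n) (Fin n) K) (g : G)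
    (a : AlgebraicClosure K) (hroot : aeval a (ρ g).charpoly = 0)
    (ha : ∀ m : ℕ, 0 < m → a ^ m ≠ 1) {q : ℕ} {e : G → Matrix (Fin q) (Fin q) ℂ}
    (he : IsIdemL1 e) : hsTrace (ConjClasses.mk g) e = 0 := by
  let ι := algebraMap K (AlgebraicClosure K)
  let ρc : G →* Matrix (Fin n) (Fin n) (AlgebraicClosure K) := ι.mapMatrix.toMonoidHom.comp ρ
  obtain ⟨v, hv, hev⟩ : ∃ v ≠ 0, (Matrix.scalar (Fin n) a - ρc g) *ᵥ v = 0 := by
    rw [Matrix.exists_mulVec_eq_zero_iff, ← Matrix.eval_charpoly]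
    show (((ρ g).map ι).charpoly).eval a = 0
    rw [Matrix.charpoly_map, eval_map, ← aeval_def]
    exact hroot
  have hev' : ρc g *ᵥ v = a • v := by
    rw [sub_mulVec, sub_eq_zero] at hev
    rw [← hev]
    funext i
    simp [Matrix.scalar_apply, mulVec_diagonal]
  refine hsTrace_eq_zero_of_fg g (fun s x hx q' e' he' => ?_) he
  obtain ⟨c, hc⟩ := isConj_iff.mp hx
  have h1 : ρc (x : G) * ρc c = ρc c * ρc g := by
    rw [← map_mul, ← map_mul, ← hc]
    congr 1
    group
  refine hsTrace_eq_zero_fg s (ρc.comp (Subgroup.closure (s : Set G)).subtype) x a (ρc c *ᵥ v)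
    ?_ ?_ ha he'
  · intro h
    apply hv
    have h2 := congrArg (fun u => ρc c⁻¹ *ᵥ u) h
    simpa [mulVec_mulVec, ← map_mul] using h2
  · show ρc (x : G) *ᵥ (ρc c *ᵥ v) = a • (ρc c *ᵥ v)
    rw [mulVec_mulVec, h1, ← mulVec_mulVec, hev', mulVec_smul]

/-- In positive characteristic a matrix whose eigenvalues are roots of unity has finite order. -/
theorem finite_order_of_roots (p : ℕ) [Fact p.Prime] [CharP K p]
    (M : Matrix (Fin n) (Fin n) K)
    (h : ∀ a : AlgebraicClosure K, aeval a M.charpoly = 0 → ∃ m : ℕ, 0 < m ∧ a ^ m = 1) :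
    ∃ N : ℕ, 0 < N ∧ M ^ N = 1 := by
  rcases Nat.eq_zero_or_pos n with hn | hn
  · subst hn
    exact ⟨1, one_pos, Subsingleton.elim _ _⟩
  have : Nonempty (Fin n) := ⟨⟨0, hn⟩⟩
  let ι := algebraMap K (AlgebraicClosure K)
  let Mc : Matrix (Fin n) (Fin n) (AlgebraicClosure K) := M.map ι
  have : CharP (AlgebraicClosure K) p := charP_of_injective_algebraMap' K p
  have : CharP (Matrix (Fin n) (Fin n) (AlgebraicClosure K)) p := inferInstance
  set R := Mc.charpoly.roots with hR
  choose! m hm0 hm1 using h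
  let T := R.toFinset
  let m₀ := ∏ r ∈ T, m r
  have hr : ∀ r ∈ R, aeval r M.charpoly = 0 := fun r hr => by
    have h' := Polynomial.isRoot_of_mem_roots hr
    rwa [Polynomial.IsRoot, show Mc.charpoly = M.charpoly.map ι from Matrix.charpoly_map M ι,
      eval_map, ← aeval_def] at h'
  have hm₀ : 0 < m₀ := Finset.prod_pos fun r hr' => hm0 r (hr r (Multiset.mem_toFinset.mp hr'))
  have hpow : ∀ r ∈ R, r ^ m₀ = 1 := fun r hr' => by
    obtain ⟨k, hk⟩ : m r ∣ m₀ := Finset.dvd_prod_of_mem m (Multiset.mem_toFinset.mpr hr')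
    rw [hk, pow_mul, hm1 r (hr r hr'), one_pow]
  let P : (AlgebraicClosure K)[X] := X ^ m₀ - 1
  have hdvd : Mc.charpoly ∣ P ^ Multiset.card R := by
    conv_lhs => rw [(IsAlgClosed.splits Mc.charpoly).eq_prod_roots_of_monic Mc.charpoly_monic]
    rw [← hR, ← Multiset.prod_replicate, ← Multiset.map_const']
    refine Multiset.prod_dvd_prod_of_dvd (S := R) _ _ fun r hr' => ?_
    rw [dvd_iff_isRoot]
    simp [P, Polynomial.IsRoot, hpow r hr']
  have hz : (Mc ^ m₀ - 1) ^ Multiset.card R = 0 := by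
    obtain ⟨Q, hQ⟩ := hdvd
    have h1 := congrArg (aeval Mc) hQ
    rw [map_mul, Matrix.aeval_self_charpoly, zero_mul, map_pow] at h1
    simpa [P] using h1
  obtain ⟨k, hk⟩ : ∃ k, Multiset.card R ≤ p ^ k :=
    ⟨Multiset.card R, ((Nat.lt_pow_self (Fact.out : p.Prime).one_lt)).le⟩
  refine ⟨m₀ * p ^ k, Nat.mul_pos hm₀ (Nat.pow_pos (Fact.out : p.Prime).pos), ?_⟩
  have h2 : (Mc ^ m₀ - 1) ^ p ^ k = 0 := pow_eq_zero_of_le hk hz
  rw [sub_pow_char_pow_of_commute (p := p) k (Commute.one_right (Mc ^ m₀)), one_pow, sub_eq_zero,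
    ← pow_mul] at h2
  apply Matrix.map_injective (f := ι) ι.injective
  show ι.mapMatrix (M ^ (m₀ * p ^ k)) = ι.mapMatrix 1
  rw [map_pow, map_one]
  exact h2

end Vale.Agent.P184
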