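import Vale.Agent.P184.Displacement

/-! Linear representations over normed fields: an eigenvalue of absolute value different from one
gives an equivariant displacement function. -/

set_option linter.unusedSectionVars false

namespace Vale.Agent.P184

open scoped Classical
open Matrix Subgroup

variable {K : Type} [NormedField K] {n r : ℕ}

/-- The sum of the norms of all maximal minors (repetitions allowed). -/
noncomputable def minors (M : Matrix (Fin n) (Fin r) K) : ℝ :=
  ∑ f : Fin r → Fin n, ‖(M.submatrix f id).det‖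

lemma minors_nonneg (M : Matrix (Fin n) (Fin r) K) : 0 ≤ minors M :=
  Finset.sum_nonneg fun _ _ => norm_nonneg _

lemma minors_mul (M : Matrix (Fin n) (Fin r) K) (A : Matrix (Fin r) (Fin r) K) :
    minors (M * A) = minors M * ‖A.det‖ := by
  rw [minors, minors, Finset.sum_mul]
  refine Finset.sum_congr rfl fun f _ => ?_
  rw [← norm_mul, ← det_mul]
  rfl

lemma minors_mul_le {m : ℕ} (k : Matrix (Fin m) (Fin n) K) (M : Matrix (Fin n) (Fin r) K) :
    minors (k * M)
      ≤ (∑ s : Fin r → Fin m, ∑ f : Fin r → Fin n, ∏ i, ‖k (s i) (f i)‖) * minors M := by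
  rw [Finset.sum_mul]
  refine Finset.sum_le_sum fun s _ => ?_
  have hdet : ((k * M).submatrix s id).det
      = ∑ f : Fin r → Fin n, (∏ i, k (s i) (f i)) * (M.submatrix f id).det := by
    have h1 : (k * M).submatrix s id = fun i => ∑ j : Fin n, k (s i) j • M j := by
      funext i c
      simp [Matrix.mul_apply, Finset.sum_apply]
    rw [h1]
    show Matrix.detRowAlternating.toMultilinearMap _ = _
    rw [MultilinearMap.map_sum]
    refine Finset.sum_congr rfl fun f _ => ?_
    rw [MultilinearMap.map_smul_univ]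
    rfl
  rw [hdet, Finset.sum_mul]
  refine (norm_sum_le _ _).trans (Finset.sum_le_sum fun f _ => ?_)
  rw [norm_mul, norm_prod]
  exact mul_le_mul_of_nonneg_left
    (Finset.single_le_sum (f := fun f => ‖(M.submatrix f id).det‖) (fun _ _ => norm_nonneg _)
      (Finset.mem_univ f))
    (Finset.prod_nonneg fun _ _ => norm_nonneg _)

variable {G : Type} [Group G]

/-- An eigenvalue of absolute value different from one kills the class. -/
theorem hsTrace_eq_zero_of_norm_ne_one (ρ : G →* Matrix (Fin n) (Fin n) K) (g : G) (a : K)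
    (v : Fin n → K) (hv : v ≠ 0) (hev : ρ g *ᵥ v = a • v) (ha : ‖a‖ ≠ 1)
    {q : ℕ} {e : G → Matrix (Fin q) (Fin q) ℂ} (he : IsIdemL1 e) :
    hsTrace (ConjClasses.mk g) e = 0 := by
  have hinv : ∀ x, ρ x⁻¹ * ρ x = 1 := fun x => by rw [← map_mul, inv_mul_cancel, map_one]
  have ha0 : a ≠ 0 := by
    rintro rfl
    apply hv
    have h := congrArg (fun u => ρ g⁻¹ *ᵥ u) hev
    simpa [mulVec_mulVec, hinv] using h
  let W := LinearMap.ker ((ρ g - a • 1).mulVecLin)
  have hmem : ∀ u, u ∈ W ↔ ρ g *ᵥ u = a • u := fun u => by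
    simp [W, LinearMap.mem_ker, sub_mulVec, smul_mulVec, sub_eq_zero]
  set r := Module.finrank K W with hr
  let b : Module.Basis (Fin r) K W := Module.finBasis K W
  let P : Matrix (Fin n) (Fin r) K := Matrix.of fun i j => (b j : Fin n → K) i
  have hrpos : 0 < r := by
    rw [hr, Module.finrank_pos_iff_exists_ne_zero]
    exact ⟨⟨v, (hmem v).mpr hev⟩, fun h => hv (congrArg Subtype.val h)⟩
  have hPc : ∀ c, P *ᵥ c = ((∑ j, c j • b j : W) : Fin n → K) := fun c => by
    funext i
    simp [P, mulVec, dotProduct, Finset.sum_apply, mul_comm]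
  obtain ⟨Q, hQ⟩ : ∃ Q : Matrix (Fin r) (Fin n) K, Q * P = 1 := by
    have hinj : LinearMap.ker P.mulVecLin = ⊥ := by
      rw [LinearMap.ker_eq_bot']
      intro c hc
      rw [mulVecLin_apply, hPc] at hc
      funext j
      exact Fintype.linearIndependent_iff.mp b.linearIndependent c (Subtype.ext hc) j
    obtain ⟨l, hl⟩ := LinearMap.exists_leftInverse_of_injective P.mulVecLin hinj
    refine ⟨LinearMap.toMatrix' l, ?_⟩
    have h2 : P = LinearMap.toMatrix' P.mulVecLin := (LinearMap.toMatrix'_toLin' P).symm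
    rw [h2, ← LinearMap.toMatrix'_comp, hl, LinearMap.toMatrix'_id]
  have hcol : ∀ j, P.col j = (b j : Fin n → K) := fun j => rfl
  have hfix : ∀ u ∈ W, P *ᵥ (Q *ᵥ u) = u := by
    intro u hu
    have h1 : u = P *ᵥ (fun j => b.repr ⟨u, hu⟩ j) := by
      rw [hPc, b.sum_repr]
    rw [h1, mulVec_mulVec _ Q P, hQ, one_mulVec]
  let A : G → Matrix (Fin r) (Fin r) K := fun z => Q * (ρ z * P)
  have hA : ∀ z, z ∈ centralizer {g} → P * A z = ρ z * P := by
    intro z hz
    apply Matrix.ext_col
    intro j
    have hzg : g * z = z * g := Subgroup.mem_centralizer_iff.mp hz g (Set.mem_singleton g)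
    have hcolz : (ρ z * P).col j = ρ z *ᵥ (b j : Fin n → K) := by
      funext i
      simp [P, Matrix.mul_apply, mulVec, dotProduct]
    have hW : ρ z *ᵥ (b j : Fin n → K) ∈ W := by
      rw [hmem, mulVec_mulVec, ← map_mul, hzg, map_mul, ← mulVec_mulVec,
        (hmem _).mp (b j).2, mulVec_smul]
    have hl : (P * A z).col j = P *ᵥ (Q *ᵥ ((ρ z * P).col j)) := by
      funext i
      simp [A, Matrix.mul_apply, mulVec, dotProduct]
    rw [hl, hcolz, hfix _ hW]
  have hAg : A g = a • 1 := by
    have h1 : ρ g * P = a • P := by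
      ext i j
      have h := congrFun ((hmem _).mp (b j).2) i
      simpa [P, Matrix.mul_apply, mulVec, dotProduct] using h
    simp [A, h1, hQ]
  let C : Matrix (Fin n) (Fin n) K → ℝ := fun k =>
    ∑ s : Fin r → Fin n, ∑ f : Fin r → Fin n, ∏ i, ‖k (s i) (f i)‖
  have hP0 : 0 < minors P := by
    refine lt_of_le_of_ne (minors_nonneg P) fun h => ?_
    have h1 := minors_mul_le Q P
    rw [hQ, ← h, mul_zero] at h1
    have h2 : ‖((1 : Matrix (Fin r) (Fin r) K).submatrix id id).det‖
        ≤ minors (1 : Matrix (Fin r) (Fin r) K) :=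
      Finset.single_le_sum (f := fun f => ‖((1 : Matrix (Fin r) (Fin r) K).submatrix f id).det‖)
        (fun _ _ => norm_nonneg _) (Finset.mem_univ id)
    simp at h2
    linarith
  have hC : ∀ k x, minors (ρ (k * x) * P) ≤ C (ρ k) * minors (ρ x * P) := fun k x => by
    rw [map_mul, Matrix.mul_assoc]
    exact minors_mul_le _ _
  have hpos : ∀ x, 0 < minors (ρ x * P) := by
    intro x
    refine lt_of_le_of_ne (minors_nonneg _) fun h => ?_
    have h1 := hC x⁻¹ x
    rw [← h, mul_zero, inv_mul_cancel, map_one, Matrix.one_mul] at h1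
    linarith
  let F : G → ℝ := fun x => Real.log (minors (ρ x * P))
  let φ : G → ℝ := fun z => Real.log ‖(A z).det‖
  refine hsTrace_eq_zero_of_equivariant g F φ (fun k => ?_) (fun x z hz => ?_) ?_ he
  · refine ⟨|Real.log (C (ρ k))| + |Real.log (C (ρ k⁻¹))|, fun x => ?_⟩
    have hCpos : ∀ k x, 0 < C (ρ k) ∧ F (k * x) - F x ≤ Real.log (C (ρ k)) := by
      intro k x
      have hc : 0 < C (ρ k) := by
        by_contra hneg
        exact absurd ((hpos (k * x)).trans_le (hC k x))
          (not_lt.mpr (mul_nonpos_of_nonpos_of_nonneg (not_lt.mp hneg) (hpos x).le))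
      refine ⟨hc, ?_⟩
      have h := Real.log_le_log (hpos (k * x)) (hC k x)
      rw [Real.log_mul hc.ne' (hpos x).ne'] at h
      simp only [F]
      linarith
    have h1 := (hCpos k x).2
    have h2 := (hCpos k⁻¹ (k * x)).2
    rw [inv_mul_cancel_left] at h2
    rw [abs_le]
    constructor <;>
      linarith [le_abs_self (Real.log (C (ρ k))), le_abs_self (Real.log (C (ρ k⁻¹))),
        abs_nonneg (Real.log (C (ρ k))), abs_nonneg (Real.log (C (ρ k⁻¹)))]
  · have hdet : 0 < ‖(A z).det‖ := by
      have h := hpos z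
      rw [← hA z hz, minors_mul] at h
      exact pos_of_mul_pos_right h hP0.le
    simp only [F, φ]
    rw [← Real.log_mul (hpos x).ne' hdet.ne', ← minors_mul, map_mul, Matrix.mul_assoc,
      ← hA z hz, ← Matrix.mul_assoc]
  · simp only [φ, hAg, det_smul, det_one, mul_one, norm_pow, Real.log_pow, Fintype.card_fin]
    refine mul_ne_zero (Nat.cast_ne_zero.mpr hrpos.ne') ?_
    exact Real.log_ne_zero_of_pos_of_ne_one (norm_pos_iff.mpr ha0) ha

end Vale.Agent.P184
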