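import Mathlib

namespace Vale.Agent.P184

/-- A real function is bounded. -/
def IsBdd {α : Type} (u : α → ℝ) : Prop := ∃ B, ∀ a, |u a| ≤ B

/-- A group is amenable: there is a left-invariant mean on its bounded real functions. -/
def HasInvMean (Z : Type) [Group Z] : Prop :=
  ∃ m : (Z → ℝ) → ℝ,
    (∀ u v, IsBdd u → IsBdd v → m (fun w => u w + v w) = m u + m v) ∧
    (∀ u a, IsBdd u → (∀ w, u w ≤ a) → m u ≤ a) ∧
    (∀ u a, IsBdd u → (∀ w, a ≤ u w) → a ≤ m u) ∧
    ∀ z u, IsBdd u → m (fun w => u (z * w)) = m u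

end Vale.Agent.P184
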