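import Vale.Agent.P184.L1

/-! Every idempotent of `ℓ¹(G, A)` is close to one of finite weighted norm, for a subadditive
weight (Newton iteration `u ↦ 3u² - 2u³`). -/

set_option linter.unusedSectionVars false

namespace Vale.Agent.P184

open scoped Classical Topology
open Filter

variable {G A : Type} [Group G] [NormedRing A] [CompleteSpace A]

/-- A nonnegative subadditive weight. -/
structure Weight (G : Type) [Group G] where
  w : G → ℝ
  nonneg : ∀ g, 0 ≤ w g
  submul : ∀ g h, w (g * h) ≤ w g + w h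

namespace L1

variable (L : Weight G)

/-- The weighted norm is finite. -/
def Fin' (a : L1 G A) : Prop := Summable fun g => L.w g * ‖a g‖

/-- The weighted norm. -/
noncomputable def wn (a : L1 G A) : ℝ := ∑' g, L.w g * ‖a g‖

variable {L}

lemma wn_nonneg (a : L1 G A) : 0 ≤ wn L a :=
  tsum_nonneg fun g => mul_nonneg (L.nonneg g) (norm_nonneg _)

lemma nm_add_le (a b : L1 G A) : nm (a + b) ≤ nm a + nm b := by
  rw [nm, nm, nm, ← a.summable'.tsum_add b.summable']
  exact (a + b).summable'.tsum_le_tsum (fun g => norm_add_le _ _) (a.summable'.add b.summable')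

lemma nm_sub_le (a b : L1 G A) : nm (a - b) ≤ nm a + nm b := by
  rw [nm, nm, nm, ← a.summable'.tsum_add b.summable']
  exact (a - b).summable'.tsum_le_tsum (fun g => norm_sub_le _ _) (a.summable'.add b.summable')

lemma fin_of_bound {a : L1 G A} {u : G → ℝ} (hu : Summable u)
    (h : ∀ g, L.w g * ‖a g‖ ≤ u g) : Fin' L a :=
  Summable.of_nonneg_of_le (fun g => mul_nonneg (L.nonneg g) (norm_nonneg _)) h hu

lemma fin_add {a b : L1 G A} (ha : Fin' L a) (hb : Fin' L b) :
    Fin' L (a + b) ∧ wn L (a + b) ≤ wn L a + wn L b := by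
  have hle : ∀ g, L.w g * ‖(a + b) g‖ ≤ L.w g * ‖a g‖ + L.w g * ‖b g‖ := fun g => by
    rw [← mul_add]
    exact mul_le_mul_of_nonneg_left (norm_add_le _ _) (L.nonneg g)
  have hs : Fin' L (a + b) := fin_of_bound (Summable.add ha hb) hle
  refine ⟨hs, ?_⟩
  rw [wn, wn, wn, ← Summable.tsum_add ha hb]
  exact Summable.tsum_le_tsum hle hs (Summable.add ha hb)

lemma fin_sub {a b : L1 G A} (ha : Fin' L a) (hb : Fin' L b) :
    Fin' L (a - b) ∧ wn L (a - b) ≤ wn L a + wn L b := by
  have hle : ∀ g, L.w g * ‖(a - b) g‖ ≤ L.w g * ‖a g‖ + L.w g * ‖b g‖ := fun g => by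
    rw [← mul_add]
    exact mul_le_mul_of_nonneg_left (norm_sub_le _ _) (L.nonneg g)
  have hs : Fin' L (a - b) := fin_of_bound (Summable.add ha hb) hle
  refine ⟨hs, ?_⟩
  rw [wn, wn, wn, ← Summable.tsum_add ha hb]
  exact Summable.tsum_le_tsum hle hs (Summable.add ha hb)

lemma weight_term_le (a b : L1 G A) (g h : G) :
    L.w g * (‖a h‖ * ‖b (h⁻¹ * g)‖)
      ≤ L.w h * ‖a h‖ * ‖b (h⁻¹ * g)‖ + ‖a h‖ * (L.w (h⁻¹ * g) * ‖b (h⁻¹ * g)‖) := by
  have hw : L.w g ≤ L.w h + L.w (h⁻¹ * g) := by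
    have h1 := L.submul h (h⁻¹ * g)
    rwa [mul_inv_cancel_left] at h1
  have h2 := mul_le_mul_of_nonneg_right hw
    (mul_nonneg (norm_nonneg (a h)) (norm_nonneg (b (h⁻¹ * g))))
  linarith

/-- Pushing a summable function on pairs to the convolution layout. -/
lemma summable_shear_of {F : G × G → ℝ} (hF : Summable F) :
    Summable fun p : G × G => F (p.2, p.2⁻¹ * p.1) :=
  hF.comp_injective (i := fun p : G × G => (p.2, p.2⁻¹ * p.1)) (shear G).symm.injective

lemma tsum_shear_of {F : G × G → ℝ} (hF : Summable F) :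
    (∑' g, ∑' h, F (h, h⁻¹ * g)) = ∑' p, F p := by
  have h1 : (∑' p : G × G, F (p.2, p.2⁻¹ * p.1)) = ∑' g, ∑' h, F (h, h⁻¹ * g) :=
    (summable_shear_of hF).tsum_prod
  rw [← h1]
  exact (shear G).symm.tsum_eq F

lemma norm_mul_apply_le (a b : L1 G A) (g : G) :
    ‖(a * b) g‖ ≤ ∑' h, ‖a h‖ * ‖b (h⁻¹ * g)‖ := by
  rw [mul_apply]
  exact conv_norm_le a b g

lemma fin_mul {a b : L1 G A} (ha : Fin' L a) (hb : Fin' L b) :
    Fin' L (a * b) ∧ wn L (a * b) ≤ wn L a * nm b + nm a * wn L b := by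
  have hwa : Summable fun g => L.w g * ‖a g‖ := ha
  have hwb : Summable fun g => L.w g * ‖b g‖ := hb
  have hna : ∀ g, 0 ≤ L.w g * ‖a g‖ := fun g => mul_nonneg (L.nonneg g) (norm_nonneg _)
  have hnb : ∀ g, 0 ≤ L.w g * ‖b g‖ := fun g => mul_nonneg (L.nonneg g) (norm_nonneg _)
  have h1 : Summable fun p : G × G => L.w p.1 * ‖a p.1‖ * ‖b p.2‖ :=
    Summable.mul_of_nonneg (f := fun g => L.w g * ‖a g‖) (g := fun g => ‖b g‖) hwa b.summable'
      hna fun _ => norm_nonneg _
  have h2 : Summable fun p : G × G => ‖a p.1‖ * (L.w p.2 * ‖b p.2‖) :=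
    Summable.mul_of_nonneg (f := fun g => ‖a g‖) (g := fun g => L.w g * ‖b g‖) a.summable' hwb
      (fun _ => norm_nonneg _) hnb
  have hF := h1.add h2
  have hF' : Summable fun p : G × G => L.w p.2 * ‖a p.2‖ * ‖b (p.2⁻¹ * p.1)‖
      + ‖a p.2‖ * (L.w (p.2⁻¹ * p.1) * ‖b (p.2⁻¹ * p.1)‖) :=
    summable_shear_of (F := fun p => L.w p.1 * ‖a p.1‖ * ‖b p.2‖
      + ‖a p.1‖ * (L.w p.2 * ‖b p.2‖)) hF
  have hle : ∀ g, L.w g * ‖(a * b) g‖ ≤ ∑' h, (L.w h * ‖a h‖ * ‖b (h⁻¹ * g)‖
      + ‖a h‖ * (L.w (h⁻¹ * g) * ‖b (h⁻¹ * g)‖)) := by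
    intro g
    have hconv := mul_le_mul_of_nonneg_left (norm_mul_apply_le a b g) (L.nonneg g)
    refine le_trans hconv ?_
    rw [← tsum_mul_left]
    exact Summable.tsum_le_tsum (weight_term_le a b g) ((summable_conv_norm a b g).mul_left _)
      (hF'.prod_factor g)
  have hs : Fin' L (a * b) := fin_of_bound hF'.prod hle
  refine ⟨hs, ?_⟩
  have hle2 : wn L (a * b) ≤ ∑' g, ∑' h, (L.w h * ‖a h‖ * ‖b (h⁻¹ * g)‖
      + ‖a h‖ * (L.w (h⁻¹ * g) * ‖b (h⁻¹ * g)‖)) :=
    Summable.tsum_le_tsum hle hs hF'.prod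
  refine hle2.trans (le_of_eq ?_)
  rw [tsum_shear_of (F := fun p => L.w p.1 * ‖a p.1‖ * ‖b p.2‖
    + ‖a p.1‖ * (L.w p.2 * ‖b p.2‖)) hF, h1.tsum_add h2]
  simp only [wn, nm]
  rw [Summable.tsum_mul_tsum ha b.summable' h1, Summable.tsum_mul_tsum a.summable' hb h2]

/-- The Newton step `3u² - 2u³`. -/
noncomputable def newton (u : L1 G A) : L1 G A :=
  u + ((u * u - u) - (u * (u * u - u) + u * (u * u - u)))

lemma newton_defect (u : L1 G A) :
    newton u * newton u - newton u
      = ((u * u - u) * ((u * u - u) * (u * u - u)) + (u * u - u) * ((u * u - u) * (u * u - u))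
          + (u * u - u) * ((u * u - u) * (u * u - u)) + (u * u - u) * ((u * u - u) * (u * u - u)))
        - ((u * u - u) * (u * u - u) + (u * u - u) * (u * u - u)
          + (u * u - u) * (u * u - u)) := by
  simp only [newton, mul_sub, sub_mul, mul_add, add_mul, mul_assoc]
  abel

lemma defect_bound {u : L1 G A} (hu : Fin' L u) (h1 : nm (u * u - u) ≤ 1) :
    Fin' L (newton u * newton u - newton u) ∧
      nm (newton u * newton u - newton u) ≤ 7 * (nm (u * u - u) * nm (u * u - u)) ∧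
      wn L (newton u * newton u - newton u) ≤ 18 * (nm (u * u - u) * wn L (u * u - u)) := by
  set e := u * u - u with he
  have fe : Fin' L e := (fin_sub (fin_mul hu hu).1 hu).1
  obtain ⟨f2, w2⟩ := fin_mul fe fe
  obtain ⟨f3, w3⟩ := fin_mul fe f2
  have n2 := nm_mul_le e e
  have n3 := nm_mul_le e (e * e)
  have a0 := nm_nonneg e
  have b0 : 0 ≤ wn L e := wn_nonneg e
  rw [newton_defect]
  obtain ⟨f33, w33⟩ := fin_add f3 f3
  obtain ⟨f333, w333⟩ := fin_add f33 f3
  obtain ⟨f3333, w3333⟩ := fin_add f333 f3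
  obtain ⟨f22, w22⟩ := fin_add f2 f2
  obtain ⟨f222, w222⟩ := fin_add f22 f2
  obtain ⟨ft, wt⟩ := fin_sub f3333 f222
  have q1 : nm e * nm (e * e) ≤ nm e * nm e := by
    calc nm e * nm (e * e) ≤ nm e * (nm e * 1) := by
          refine mul_le_mul_of_nonneg_left (n2.trans ?_) a0
          exact mul_le_mul_of_nonneg_left h1 a0
      _ = nm e * nm e := by ring
  refine ⟨ft, ?_, ?_⟩
  · have := nm_sub_le (e * (e * e) + e * (e * e) + e * (e * e) + e * (e * e))
      (e * e + e * e + e * e)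
    have := nm_add_le (e * (e * e)) (e * (e * e))
    have := nm_add_le (e * (e * e) + e * (e * e)) (e * (e * e))
    have := nm_add_le (e * (e * e) + e * (e * e) + e * (e * e)) (e * (e * e))
    have := nm_add_le (e * e) (e * e)
    have := nm_add_le (e * e + e * e) (e * e)
    linarith
  · have q2 : wn L e * nm (e * e) ≤ nm e * wn L e := by
      calc wn L e * nm (e * e) ≤ wn L e * (nm e * 1) := by
            refine mul_le_mul_of_nonneg_left (n2.trans ?_) b0
            exact mul_le_mul_of_nonneg_left h1 a0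
        _ = nm e * wn L e := by ring
    have q3 : nm e * wn L (e * e) ≤ 2 * (nm e * wn L e) := by
      calc nm e * wn L (e * e) ≤ nm e * (wn L e * nm e + nm e * wn L e) :=
            mul_le_mul_of_nonneg_left w2 a0
        _ = nm e * (2 * (nm e * wn L e)) := by ring
        _ ≤ 1 * (2 * (nm e * wn L e)) := mul_le_mul_of_nonneg_right h1 (by positivity)
        _ = 2 * (nm e * wn L e) := one_mul _
    linarith

lemma step_bound {u : L1 G A} (hu : Fin' L u) :
    Fin' L (newton u) ∧ nm (newton u - u) ≤ (1 + 2 * nm u) * nm (u * u - u) ∧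
      wn L (newton u - u)
        ≤ (1 + 2 * nm u) * wn L (u * u - u) + 2 * (wn L u * nm (u * u - u)) ∧
      Fin' L (newton u - u) := by
  set e := u * u - u with he
  have fe : Fin' L e := (fin_sub (fin_mul hu hu).1 hu).1
  obtain ⟨fue, wue⟩ := fin_mul hu fe
  obtain ⟨f2, w2⟩ := fin_add fue fue
  obtain ⟨fd, wd⟩ := fin_sub fe f2
  have hd : newton u - u = e - (u * e + u * e) := by rw [newton, add_sub_cancel_left]
  refine ⟨(fin_add hu fd).1, ?_, ?_, by rw [hd]; exact fd⟩
  · rw [hd]
    have := nm_sub_le e (u * e + u * e)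
    have := nm_add_le (u * e) (u * e)
    have := nm_mul_le u e
    linarith
  · rw [hd]
    linarith

lemma eq_of_nm_le_zero {a : L1 G A} (h : nm a ≤ 0) : a = 0 := by
  ext g
  exact norm_le_zero_iff.mp ((norm_le_nm a g).trans h)

/-- Truncation to a finite set. -/
noncomputable def trunc (s : Finset G) (a : L1 G A) : L1 G A :=
  ⟨fun g => if g ∈ s then a g else 0, by
    refine summable_of_ne_finset_zero (s := s) fun g hg => ?_
    simp [hg]⟩

lemma exists_fin_near (L : Weight G) (a : L1 G A) {δ : ℝ} (hδ : 0 < δ) :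
    ∃ u : L1 G A, Fin' L u ∧ nm (u - a) < δ := by
  obtain ⟨s, hs⟩ := (a.summable'.hasSum.eventually (eventually_gt_nhds
    (show nm a - δ < ∑' g, ‖a g‖ from by unfold nm; linarith))).exists
  refine ⟨trunc s a, summable_of_ne_finset_zero (s := s) fun g hg => by simp [trunc, hg], ?_⟩
  have hsplit := a.summable'.sum_add_tsum_compl (s := s)
  have heq : nm (trunc s a - a) = ∑' g : ↑(↑s : Set G)ᶜ, ‖a g‖ := by
    rw [nm, tsum_subtype (↑s : Set G)ᶜ (fun g => ‖a g‖)]
    refine tsum_congr fun g => ?_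
    by_cases hg : g ∈ s <;> simp [trunc, sub_apply, hg]
  rw [heq]
  unfold nm at hs
  linarith

/-- Smoothing from a given nearby approximation, with a bound on the weighted norm. -/
theorem exists_smooth_from (L : Weight G) {e u₀ : L1 G A} (he : e * e = e) (hu₀ : Fin' L u₀)
    (hδ : nm (u₀ - e) < 1 / (100 * (nm e + 1)) / (4 * (nm e + 1))) :
    ∃ f : L1 G A, f * f = f ∧ Fin' L f ∧ nm (f - e) < 1 ∧
      wn L f ≤ (wn L u₀ + 4 * (1 + 2 * (nm e + 1)) * wn L (u₀ * u₀ - u₀)) * 2 := by
  set M := nm e + 1 with hM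
  have hM1 : 1 ≤ M := by linarith [nm_nonneg e]
  set α : ℝ := 1 / (100 * M) with hα
  have hαpos : 0 < α := by positivity
  have hαM : (1 + 2 * M) * α ≤ 1 / 20 := by
    rw [hα, ← mul_div_assoc, mul_one, div_le_div_iff₀ (by positivity) (by norm_num)]
    nlinarith
  have hαs : α ≤ 1 / 60 := by
    rw [hα]; exact one_div_le_one_div_of_le (by norm_num) (by linarith)
  replace hδ : nm (u₀ - e) < α / (4 * M) := hδ
  have hd4 : nm (u₀ - e) ≤ 1 / 4 := by
    refine hδ.le.trans ?_
    rw [div_le_div_iff₀ (by positivity) (by norm_num)]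
    nlinarith
  let u : ℕ → L1 G A := fun n => Nat.rec u₀ (fun _ x => newton x) n
  set Δ : ℕ → L1 G A := fun n => u n * u n - u n with hΔ
  have ha0 : nm (Δ 0) ≤ α := by
    have key : Δ 0 = (u₀ - e) * u₀ + e * (u₀ - e) - (u₀ - e) := by
      show u₀ * u₀ - u₀ = _
      simp only [sub_mul, mul_sub, he]
      abel
    have hu0 : nm u₀ ≤ M := by
      have h := nm_add_le (u₀ - e) e
      rw [sub_add_cancel] at h
      linarith
    rw [key]
    have := nm_sub_le ((u₀ - e) * u₀ + e * (u₀ - e)) (u₀ - e)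
    have := nm_add_le ((u₀ - e) * u₀) (e * (u₀ - e))
    have := (nm_mul_le (u₀ - e) u₀).trans (mul_le_mul_of_nonneg_left hu0 (nm_nonneg _))
    have := (nm_mul_le e (u₀ - e)).trans
      (mul_le_mul_of_nonneg_right (show nm e ≤ M by linarith) (nm_nonneg _))
    have h4 : nm (u₀ - e) * (4 * M) ≤ α :=
      ((le_div_iff₀ (by positivity)).mp hδ.le)
    nlinarith [nm_nonneg (u₀ - e)]
  set w₀ := wn L (Δ 0) with hw₀
  set P := wn L u₀ + 4 * (1 + 2 * M) * w₀ with hP
  have hw0n : 0 ≤ w₀ := wn_nonneg _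
  have hPn : 0 ≤ P := by
    have h := wn_nonneg (L := L) u₀
    positivity
  have inv : ∀ n : ℕ, Fin' L (u n) ∧ nm (Δ n) ≤ α * (1 / 2) ^ n ∧
      wn L (Δ n) ≤ w₀ * (1 / 2) ^ n ∧
      nm (u n - e) ≤ 1 / 4 + 1 / 10 * (1 - (1 / 2) ^ n) ∧
      wn L (u n) ≤ P * (2 - (1 / 2) ^ n) := by
    intro n
    induction n with
    | zero =>
      refine ⟨hu₀, by simpa using ha0, by simp [hw₀], ?_, ?_⟩
      · show nm (u₀ - e) ≤ _
        rw [pow_zero]
        linarith
      · have : (0 : ℝ) ≤ 4 * (1 + 2 * M) * w₀ := by positivity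
        show wn L u₀ ≤ P * (2 - (1 / 2) ^ 0)
        rw [pow_zero, hP]; linarith
    | succ n ih =>
      obtain ⟨fu, ha, hw, hn, hW⟩ := ih
      set q : ℝ := (1 / 2) ^ n with hq
      have hq0 : 0 ≤ q := by positivity
      have hq1 : q ≤ 1 := pow_le_one₀ (by norm_num) (by norm_num)
      have hqs : (1 / 2 : ℝ) ^ (n + 1) = q / 2 := by rw [pow_succ]; ring
      have hnu : nm (u n) ≤ M := by
        have h := nm_add_le (u n - e) e
        rw [sub_add_cancel] at h
        linarith
      have a0 := nm_nonneg (Δ n)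
      have b0 : 0 ≤ wn L (Δ n) := wn_nonneg _
      have haα : nm (Δ n) ≤ α := ha.trans (mul_le_of_le_one_right hαpos.le hq1)
      obtain ⟨fd, hd1, hd2⟩ := defect_bound fu (haα.trans (by linarith))
      obtain ⟨fn, hs1, hs2, hs3⟩ := step_bound fu
      rw [hqs]
      refine ⟨fn, ?_, ?_, ?_, ?_⟩
      · show nm (newton (u n) * newton (u n) - newton (u n)) ≤ _
        have : nm (Δ n) * nm (Δ n) ≤ 1 / 60 * (α * q) :=
          mul_le_mul (haα.trans hαs) ha a0 (by norm_num)
        have := mul_nonneg hαpos.le hq0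
        linarith
      · show wn L (newton (u n) * newton (u n) - newton (u n)) ≤ _
        have : nm (Δ n) * wn L (Δ n) ≤ 1 / 60 * (w₀ * q) :=
          mul_le_mul (haα.trans hαs) hw b0 (by norm_num)
        have := mul_nonneg hw0n hq0
        linarith
      · show nm (newton (u n) - e) ≤ _
        have h1 : nm (newton (u n) - u n) ≤ q / 20 := by
          refine hs1.trans ?_
          calc (1 + 2 * nm (u n)) * nm (Δ n) ≤ (1 + 2 * M) * (α * q) :=
                mul_le_mul (by linarith) ha a0 (by linarith)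
            _ = ((1 + 2 * M) * α) * q := by ring
            _ ≤ 1 / 20 * q := mul_le_mul_of_nonneg_right hαM hq0
            _ = q / 20 := by ring
        have h2 := nm_add_le (newton (u n) - u n) (u n - e)
        rw [sub_add_sub_cancel] at h2
        linarith
      · show wn L (newton (u n)) ≤ _
        have h1 : wn L (newton (u n) - u n) ≤ P * q / 2 := by
          refine hs2.trans ?_
          have e1 : (1 + 2 * nm (u n)) * wn L (Δ n) ≤ P / 4 * q := by
            calc (1 + 2 * nm (u n)) * wn L (Δ n) ≤ (1 + 2 * M) * (w₀ * q) :=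
                  mul_le_mul (by linarith) hw b0 (by linarith)
              _ = ((1 + 2 * M) * w₀) * q := by ring
              _ ≤ P / 4 * q := by
                  refine mul_le_mul_of_nonneg_right ?_ hq0
                  rw [hP]; linarith [wn_nonneg (L := L) u₀]
          have e2 : wn L (u n) * nm (Δ n) ≤ (P * 2) * (1 / 60 * q) := by
            refine mul_le_mul (hW.trans (mul_le_mul_of_nonneg_left (by linarith) hPn))
              (ha.trans (mul_le_mul_of_nonneg_right hαs hq0)) a0 (by linarith)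
          have := mul_nonneg hPn hq0
          linarith
        have h2 := (fin_add hs3 fu).2
        rw [sub_add_cancel] at h2
        linarith
  have hstep : ∀ n, nm (u (n + 1) - u n) ≤ (1 / 2) ^ n / 20 := by
    intro n
    obtain ⟨fu, ha, _, hn, _⟩ := inv n
    have hnu : nm (u n) ≤ M := by
      have h := nm_add_le (u n - e) e
      rw [sub_add_cancel] at h
      linarith [pow_nonneg (show (0 : ℝ) ≤ 1 / 2 by norm_num) n]
    refine (step_bound fu).2.1.trans ?_
    calc (1 + 2 * nm (u n)) * nm (Δ n) ≤ (1 + 2 * M) * (α * (1 / 2) ^ n) :=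
          mul_le_mul (by linarith) ha (nm_nonneg _) (by linarith)
      _ = ((1 + 2 * M) * α) * (1 / 2) ^ n := by ring
      _ ≤ 1 / 20 * (1 / 2) ^ n := mul_le_mul_of_nonneg_right hαM (by positivity)
      _ = (1 / 2) ^ n / 20 := by ring
  have hcau : ∀ n k, nm (u (n + k) - u n) ≤ (1 / 2) ^ n / 10 * (1 - (1 / 2) ^ k) := by
    intro n k
    induction k with
    | zero => simp [nm, zero_apply]
    | succ k ih =>
      have h2 := nm_add_le (u (n + k + 1) - u (n + k)) (u (n + k) - u n)
      rw [sub_add_sub_cancel] at h2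
      refine h2.trans ((add_le_add (hstep (n + k)) ih).trans (le_of_eq ?_))
      rw [pow_add, pow_succ]
      ring
  have hpt : ∀ g, ∃ l, Tendsto (fun n => u n g) atTop (𝓝 l) := by
    intro g
    refine cauchySeq_tendsto_of_complete (cauchySeq_of_le_geometric (1 / 2) (1 / 20) (by norm_num) ?_)
    intro n
    rw [dist_comm, dist_eq_norm]
    refine ((norm_le_nm (u (n + 1) - u n) g).trans (hstep n)).trans (le_of_eq ?_)
    ring
  choose fl hfl using hpt
  have hdiff : ∀ n (s : Finset G), ∑ g ∈ s, ‖fl g - u n g‖ ≤ (1 / 2) ^ n / 10 := by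
    intro n s
    have hlim : Tendsto (fun k => ∑ g ∈ s, ‖u (n + k) g - u n g‖) atTop
        (𝓝 (∑ g ∈ s, ‖fl g - u n g‖)) := by
      refine tendsto_finsetSum s fun g _ => (Tendsto.sub ?_ tendsto_const_nhds).norm
      exact (hfl g).comp (tendsto_atTop_mono (fun k => Nat.le_add_left k n) tendsto_id)
    refine le_of_tendsto hlim (Eventually.of_forall fun k => ?_)
    have hle : nm (u (n + k) - u n) ≤ (1 / 2) ^ n / 10 := by
      refine (hcau n k).trans (mul_le_of_le_one_right (by positivity) ?_)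
      linarith [pow_nonneg (show (0 : ℝ) ≤ 1 / 2 by norm_num) k]
    exact ((u (n + k) - u n).summable'.sum_le_tsum s fun _ _ => norm_nonneg _).trans hle
  have hfs : Summable fun g => ‖fl g‖ := by
    refine summable_of_sum_le (c := 1 / 10 + nm (u 0)) (fun _ => norm_nonneg _) fun s => ?_
    have h := hdiff 0 s
    rw [pow_zero] at h
    calc ∑ g ∈ s, ‖fl g‖ ≤ ∑ g ∈ s, (‖fl g - u 0 g‖ + ‖u 0 g‖) :=
          Finset.sum_le_sum fun g _ => by simpa using norm_add_le (fl g - u 0 g) (u 0 g)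
      _ ≤ 1 / 10 + nm (u 0) := by
          rw [Finset.sum_add_distrib]
          exact add_le_add h ((u 0).summable'.sum_le_tsum s fun _ _ => norm_nonneg _)
  let f : L1 G A := ⟨fl, hfs⟩
  have hfu : ∀ n, nm (f - u n) ≤ (1 / 2) ^ n / 10 :=
    fun n => (f - u n).summable'.tsum_le_of_sum_le (hdiff n)
  have hsum : ∀ s : Finset G, ∑ g ∈ s, L.w g * ‖fl g‖ ≤ P * 2 := fun s => by
    refine le_of_tendsto (tendsto_finsetSum s fun g _ => ((hfl g).norm).const_mul (L.w g))
      (Eventually.of_forall fun n => ?_)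
    refine ((inv n).1.sum_le_tsum s fun g _ => mul_nonneg (L.nonneg g) (norm_nonneg _)).trans ?_
    exact (inv n).2.2.2.2.trans (mul_le_mul_of_nonneg_left (by
      linarith [pow_nonneg (show (0 : ℝ) ≤ 1 / 2 by norm_num) n]) hPn)
  have hffin : Fin' L f :=
    summable_of_sum_le (c := P * 2) (fun g => mul_nonneg (L.nonneg g) (norm_nonneg _)) hsum
  refine ⟨f, ?_, hffin, ?_, hffin.tsum_le_of_sum_le hsum⟩
  · have hb : ∀ n, nm (f * f - f) ≤ (2 * nm f + 3) * (1 / 2) ^ n := by
      intro n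
      obtain ⟨_, ha, _, hn, _⟩ := inv n
      set q : ℝ := (1 / 2) ^ n
      have hq0 : 0 ≤ q := by positivity
      have hq1 : q ≤ 1 := pow_le_one₀ (by norm_num) (by norm_num)
      have key : f * f - f
          = ((f - u n) * f + u n * (f - u n)) + ((u n * u n - u n) - (f - u n)) := by
        simp only [sub_mul, mul_sub]
        abel
      have hun : nm (u n) ≤ nm f + 1 := by
        have h := nm_sub_le f (f - u n)
        rw [sub_sub_cancel] at h
        linarith [hfu n]
      rw [key]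
      have hfn : nm (f - u n) ≤ q / 10 := hfu n
      have ha' : nm (u n * u n - u n) ≤ α * q := ha
      have := nm_add_le ((f - u n) * f + u n * (f - u n)) ((u n * u n - u n) - (f - u n))
      have := nm_add_le ((f - u n) * f) (u n * (f - u n))
      have := nm_sub_le (u n * u n - u n) (f - u n)
      have := (nm_mul_le (f - u n) f).trans
        (mul_le_mul_of_nonneg_right hfn (nm_nonneg _))
      have := (nm_mul_le (u n) (f - u n)).trans
        (mul_le_mul hun hfn (nm_nonneg _) (by linarith [nm_nonneg f]))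
      have := mul_nonneg (nm_nonneg f) hq0
      have : α * q ≤ q := mul_le_of_le_one_left hq0 (by linarith)
      linarith
    have hlim : Tendsto (fun n : ℕ => (2 * nm f + 3) * (1 / 2 : ℝ) ^ n) atTop (𝓝 0) := by
      simpa using (tendsto_pow_atTop_nhds_zero_of_lt_one (r := (1 / 2 : ℝ)) (by norm_num)
        (by norm_num)).const_mul (2 * nm f + 3)
    exact sub_eq_zero.mp (eq_of_nm_le_zero (ge_of_tendsto hlim (Eventually.of_forall hb)))
  · have h2 := nm_add_le (f - u 0) (u 0 - e)
    rw [sub_add_sub_cancel] at h2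
    have h3 := hfu 0
    have h4 : nm (u 0 - e) ≤ 1 / 4 := hd4
    rw [pow_zero] at h3
    linarith

/-- Smoothing of idempotents. -/
theorem exists_smooth (L : Weight G) {e : L1 G A} (he : e * e = e) :
    ∃ f : L1 G A, f * f = f ∧ Fin' L f ∧ nm (f - e) < 1 := by
  have hM : 0 < nm e + 1 := by linarith [nm_nonneg e]
  obtain ⟨u₀, hu₀, hδ⟩ := exists_fin_near L e
    (δ := 1 / (100 * (nm e + 1)) / (4 * (nm e + 1))) (by positivity)
  obtain ⟨f, h1, h2, h3, -⟩ := exists_smooth_from L he hu₀ hδ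
  exact ⟨f, h1, h2, h3⟩

end L1

end Vale.Agent.P184
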