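import Vale.Agent.P184.Twist

/-! Homomorphisms to the reals on finite-index subgroups. -/

namespace Vale.Agent.P184

open scoped Classical

variable {G : Type} [Group G] {q : ℕ}

/-- A real homomorphism on a finite-index subgroup that is nonzero at `g` kills the class of `g`. -/
theorem hsTrace_eq_zero_of_hom (H : Subgroup G) [H.FiniteIndex]
    (φ : H →* Multiplicative ℝ) (g : G) (hg : g ∈ H) (hne : φ ⟨g, hg⟩ ≠ 1)
    {e : G → Matrix (Fin q) (Fin q) ℂ} (he : IsIdemL1 e) :
    hsTrace (ConjClasses.mk g) e = 0 := by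
  haveI : Fintype (G ⧸ H) := Subgroup.fintypeQuotientOfFiniteIndex
  let sec : G ⧸ H → G := fun y => Quotient.out y
  have hsec : ∀ (k : G) y, (sec (k • y))⁻¹ * k * sec y ∈ H := by
    intro k y
    rw [mul_assoc, ← QuotientGroup.eq]
    simp only [sec, QuotientGroup.out_eq']
    show k • y = ((k * Quotient.out y : G) : G ⧸ H)
    conv_lhs => rw [← QuotientGroup.out_eq' y]
    rfl
  let c : G → G ⧸ H → ℝ := fun k y => Multiplicative.toAdd (φ ⟨_, hsec k y⟩)
  set y₀ : G ⧸ H := QuotientGroup.mk 1 with hy₀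
  have hfix : g • y₀ = y₀ := by
    show ((g * 1 : G) : G ⧸ H) = _
    rw [hy₀, QuotientGroup.eq]
    simpa using hg
  refine hsTrace_eq_zero (MulAction.toPermHom G (G ⧸ H)) c ?_ g y₀ hfix ?_ he
  · intro a b x
    simp only [c]
    rw [← toAdd_mul, ← map_mul]
    congr 2
    ext
    simp [mul_smul, mul_assoc]
  · have hh : sec y₀ ∈ H := by
      have h := QuotientGroup.out_eq' y₀
      rw [hy₀, QuotientGroup.eq] at h
      simpa [sec, hy₀] using h
    have e : (⟨_, hsec g y₀⟩ : H) = (⟨sec y₀, hh⟩ : H)⁻¹ * ⟨g, hg⟩ * ⟨sec y₀, hh⟩ := by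
      ext
      simp [hfix]
    simp only [c]
    have e' : φ ⟨_, hsec g y₀⟩ = φ ⟨g, hg⟩ := by
      rw [e, φ.map_mul, φ.map_mul, φ.map_inv, mul_comm, ← mul_assoc, mul_inv_cancel, one_mul]
    rw [e']
    intro h
    exact hne (toAdd_eq_zero.mp h)

end Vale.Agent.P184
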